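import Vale.Agent.P139Z.NE.Tree

/-! Certificates, part 1. -/

namespace Vale.Agent.P139Z.NE

theorem c1_2 : Ok 1 3000000000000 39062500000 0 19531250000 24414062500 := ⟨
  (.Y (.X (.Y (.X (.Y (.A 6 6) (.A 6 6)) (.Y (.A 6 6) (.A 6 6))) (.X (.Y (.A 6 6) (.A 6 6)) (.Y
  (.A 6 6) (.A 6 6)))) (.Y (.X (.Y (.A 5 7) (.A 5 7)) (.Y (.A 5 6) (.A 5 6))) (.X (.Y (.A 5 7)
  (.A 5 7)) (.Y (.A 5 6) (.A 5 6))))) (.X (.Y (.X (.Y (.A 6 6) (.A 6 6)) (.Y (.A 6 6) (.A 6 6)))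
  (.X (.Y (.A 6 6) (.A 6 6)) (.Y (.A 6 6) (.A 6 6)))) (.Y (.X (.Y (.A 5 7) (.A 5 6)) (.Y (.A 5
  6) (.A 5 6))) (.X (.Y (.A 5 6) (.A 5 6)) (.Y (.A 5 6) (.A 5 6)))))),
  by decide +kernel⟩

theorem c1_3 : Ok 1 3000000000000 0 48828125000 19531250000 24414062500 := ⟨
  (.Y (.X (.Y (.X (.Y (.X (.A 6 6) (.A 5 7)) (.X (.A 6 6) (.A 5 7))) (.Y (.X (.A 5 6) (.A 5 6))
  (.X (.A 5 6) (.A 5 6)))) (.X (.Y (.X (.A 5 7) (.A 5 6)) (.X (.A 5 7) (.A 5 6))) (.Y (.X (.A 5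
  6) (.A 5 6)) (.X (.A 5 6) (.A 5 6))))) (.Y (.X (.Y (.X (.A 5 6) (.A 5 6)) (.A 7 8)) (.Y (.A 6
  7) (.A 6 6))) (.X (.Y (.A 7 7) (.A 6 7)) (.Y (.A 6 6) (.A 6 6))))) (.X (.Y (.X (.Y (.X (.A 5
  6) (.A 5 6)) (.X (.A 5 6) (.A 5 6))) (.Y (.X (.A 5 6) (.A 5 6)) (.A 7 7))) (.X (.Y (.X (.A 5
  6) (.A 5 6)) (.X (.A 5 6) (.A 5 6))) (.Y (.A 6 8) (.A 6 7)))) (.Y (.X (.Y (.A 6 7) (.A 6 6))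
  (.Y (.A 6 6) (.A 6 6))) (.X (.Y (.A 6 6) (.A 6 6)) (.Y (.A 6 6) (.A 6 6)))))),
  by decide +kernel⟩

theorem c1_4 : Ok 1 3000000000000 39062500000 48828125000 19531250000 24414062500 := ⟨
  (.Y (.X (.Y (.X (.Y (.A 6 6) (.A 6 6)) (.Y (.A 6 6) (.A 5 7))) (.X (.Y (.A 6 6) (.A 6 6)) (.Y
  (.A 5 7) (.A 5 6)))) (.Y (.X (.Y (.A 5 6) (.A 5 6)) (.Y (.A 5 6) (.A 5 6))) (.X (.Y (.A 5 6)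
  (.A 5 6)) (.Y (.A 5 6) (.A 5 6))))) (.X (.Y (.X (.Y (.A 6 6) (.A 5 7)) (.Y (.A 5 6) (.A 5 6)))
  (.X (.Y (.A 5 6) (.A 5 6)) (.Y (.A 5 6) (.A 5 6)))) (.Y (.X (.Y (.A 5 6) (.A 5 6)) (.A 7 7))
  (.X (.Y (.A 5 6) (.A 5 6)) (.A 6 7))))),
  by decide +kernel⟩

theorem c1_5 : Ok 1 3000000000000 78125000000 0 39062500000 24414062500 := ⟨
  (.X (.Y (.X (.Y (.X (.Y (.A 5 6) (.A 5 6)) (.A 6 8)) (.X (.Y (.A 5 6) (.A 5 6)) (.A 6 7))) (.Y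
  (.X (.A 6 6) (.A 6 6)) (.X (.A 6 6) (.A 6 6)))) (.X (.Y (.X (.Y (.A 5 6) (.A 5 6)) (.A 6 7))
  (.X (.A 8 8) (.A 6 6))) (.Y (.X (.A 6 6) (.A 6 6)) (.X (.A 6 6) (.A 5 7))))) (.Y (.X (.Y (.X
  (.A 5 6) (.A 5 6)) (.X (.A 5 6) (.A 5 6))) (.Y (.X (.A 5 6) (.A 5 5)) (.X (.A 5 6) (.A 5 5))))
  (.X (.Y (.X (.A 5 6) (.A 5 6)) (.X (.A 5 6) (.A 5 6))) (.Y (.X (.A 5 5) (.A 5 5)) (.X (.A 5 5)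
  (.A 5 5)))))),
  by decide +kernel⟩

theorem c1_6 : Ok 1 3000000000000 78125000000 48828125000 39062500000 24414062500 := ⟨
  (.X (.Y (.X (.Y (.X (.A 7 7) (.A 6 6)) (.X (.A 6 7) (.A 6 6))) (.Y (.X (.A 6 6) (.A 5 6)) (.X
  (.A 5 7) (.A 5 6)))) (.X (.Y (.X (.A 6 6) (.A 6 6)) (.X (.A 6 6) (.A 5 7))) (.Y (.X (.A 5 6)
  (.A 5 6)) (.X (.A 5 6) (.A 5 6))))) (.Y (.X (.Y (.X (.A 5 6) (.A 5 6)) (.X (.A 5 6) (.A 5 5)))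
  (.Y (.X (.A 5 5) (.A 5 5)) (.X (.A 5 5) (.A 5 5)))) (.X (.Y (.X (.A 5 6) (.A 5 5)) (.X (.A 5
  5) (.A 5 5))) (.Y (.X (.A 5 5) (.A 5 5)) (.X (.A 5 5) (.A 5 5)))))),
  by decide +kernel⟩

theorem c1_7 : Ok 1 3000000000000 0 97656250000 19531250000 24414062500 := ⟨
  (.Y (.X (.Y (.X (.Y (.A 7 7) (.A 6 7)) (.Y (.A 6 6) (.A 6 6))) (.X (.Y (.A 6 6) (.A 6 6)) (.Y
  (.A 6 6) (.A 6 6)))) (.Y (.X (.Y (.A 6 6) (.A 6 6)) (.Y (.A 5 7) (.A 5 6))) (.X (.Y (.A 5 7)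
  (.A 5 6)) (.Y (.A 5 6) (.A 5 6))))) (.X (.Y (.X (.Y (.A 6 6) (.A 6 6)) (.Y (.A 5 7) (.A 5 6)))
  (.X (.Y (.A 5 7) (.A 5 6)) (.Y (.A 5 6) (.A 5 6)))) (.Y (.X (.Y (.A 5 6) (.A 5 6)) (.Y (.A 5
  6) (.A 5 6))) (.X (.Y (.A 5 6) (.A 5 6)) (.A 7 7))))),
  by decide +kernel⟩

theorem c1_8 : Ok 1 3000000000000 39062500000 97656250000 19531250000 24414062500 := ⟨
  (.Y (.X (.Y (.X (.Y (.A 5 6) (.A 5 6)) (.Y (.A 5 6) (.A 5 6))) (.X (.Y (.A 5 6) (.A 5 6)) (.A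
  7 7))) (.Y (.X (.A 6 7) (.A 6 6)) (.X (.A 6 6) (.A 6 6)))) (.X (.Y (.X (.A 7 7) (.A 6 6)) (.X
  (.A 6 6) (.A 6 6))) (.Y (.X (.A 6 6) (.A 5 6)) (.X (.A 5 6) (.A 5 6))))),
  by decide +kernel⟩

theorem c1_9 : Ok 1 3000000000000 0 146484375000 39062500000 24414062500 := ⟨
  (.X (.Y (.X (.Y (.X (.Y (.A 5 6) (.A 5 6)) (.Y (.A 5 6) (.A 5 6))) (.X (.Y (.A 5 6) (.A 5 6))
  (.A 6 7))) (.Y (.X (.A 7 7) (.A 6 6)) (.X (.A 6 6) (.A 6 6)))) (.X (.Y (.X (.A 6 7) (.A 6 6))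
  (.X (.A 6 6) (.A 5 7))) (.Y (.X (.A 6 6) (.A 5 6)) (.X (.A 5 6) (.A 5 6))))) (.Y (.X (.Y (.X
  (.A 6 6) (.A 5 6)) (.X (.A 5 6) (.A 5 6))) (.Y (.X (.A 5 6) (.A 5 6)) (.X (.A 5 6) (.A 5 5))))
  (.X (.Y (.X (.A 5 6) (.A 5 6)) (.X (.A 5 6) (.A 5 5))) (.Y (.X (.A 5 5) (.A 5 5)) (.X (.A 5 5)
  (.A 5 5)))))),
  by decide +kernel⟩

theorem c1_10 : Ok 1 3000000000000 78125000000 97656250000 39062500000 24414062500 := ⟨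
  (.X (.Y (.X (.Y (.X (.A 6 6) (.A 5 6)) (.X (.A 5 6) (.A 5 6))) (.Y (.X (.A 5 6) (.A 5 6)) (.X
  (.A 5 6) (.A 5 5)))) (.X (.Y (.X (.A 5 6) (.A 5 6)) (.X (.A 5 6) (.A 5 5))) (.Y (.X (.A 5 5)
  (.A 5 5)) (.X (.A 5 5) (.A 5 5))))) (.Y (.X (.Y (.X (.A 5 5) (.A 5 5)) (.X (.A 5 5) (.A 5 5)))
  (.Y (.X (.A 5 5) (.A 5 5)) (.X (.A 5 5) (.A 5 5)))) (.X (.Y (.X (.A 5 5) (.A 5 5)) (.X (.A 5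
  5) (.A 5 5))) (.Y (.X (.A 5 5) (.A 5 5)) (.A 6 7))))),
  by decide +kernel⟩

theorem c1_11 : Ok 1 3000000000000 78125000000 146484375000 39062500000 24414062500 := ⟨
  (.X (.Y (.X (.Y (.X (.A 5 5) (.A 5 5)) (.X (.A 5 5) (.A 5 5))) (.Y (.X (.A 5 5) (.A 5 5)) (.X
  (.A 5 5) (.A 5 5)))) (.X (.Y (.X (.A 5 5) (.A 5 5)) (.X (.A 5 5) (.A 5 5))) (.Y (.A 7 7) (.A 6
  6)))) (.Y (.X (.Y (.X (.A 5 5) (.A 5 5)) (.A 6 6)) (.Y (.A 6 6) (.A 5 6))) (.X (.Y (.A 6 6)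
  (.A 5 6)) (.Y (.A 5 6) (.A 5 6))))),
  by decide +kernel⟩

theorem c1_12 : Ok 1 3000000000000 156250000000 0 39062500000 48828125000 := ⟨
  (.Y (.X (.Y (.X (.Y (.X (.A 5 5) (.A 5 5)) (.X (.A 5 5) (.A 5 5))) (.Y (.X (.A 5 5) (.A 5 5))
  (.X (.A 5 5) (.A 5 5)))) (.X (.Y (.X (.A 5 5) (.A 5 5)) (.X (.A 5 5) (.A 5 5))) (.Y (.X (.A 5
  5) (.A 5 5)) (.X (.A 5 5) (.A 5 5))))) (.Y (.X (.Y (.X (.A 5 5) (.A 5 5)) (.X (.A 5 5) (.A 5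
  5))) (.Y (.A 6 8) (.A 6 7))) (.X (.Y (.X (.A 5 5) (.A 5 5)) (.X (.A 5 5) (.A 5 5))) (.Y (.A 6
  7) (.A 6 6))))) (.X (.Y (.X (.Y (.X (.A 5 5) (.A 5 5)) (.X (.A 5 5) (.A 5 5))) (.Y (.X (.A 5
  5) (.A 5 5)) (.X (.A 5 5) (.A 5 5)))) (.X (.Y (.X (.A 5 5) (.A 5 5)) (.X (.A 5 5) (.A 5 5)))
  (.Y (.A 8 8) (.A 6 7)))) (.Y (.X (.Y (.A 7 7) (.A 6 6)) (.Y (.A 6 6) (.A 6 6))) (.X (.Y (.A 6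
  6) (.A 6 6)) (.Y (.A 5 7) (.A 5 6)))))),
  by decide +kernel⟩

end Vale.Agent.P139Z.NE
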