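import Vale.Agent.P139Z.NE.Tree

/-! Certificates, part 2. -/

namespace Vale.Agent.P139Z.NE

theorem c1_13 : Ok 1 3000000000000 234375000000 0 39062500000 48828125000 := ⟨
  (.Y (.X (.Y (.X (.Y (.A 6 6) (.A 6 6)) (.Y (.A 6 6) (.A 6 6))) (.X (.Y (.A 6 6) (.A 6 6)) (.Y
  (.A 6 6) (.A 5 7)))) (.Y (.X (.Y (.A 6 6) (.A 6 6)) (.Y (.A 6 6) (.A 6 6))) (.X (.Y (.A 5 7)
  (.A 5 6)) (.Y (.A 6 6) (.A 5 6))))) (.X (.Y (.X (.Y (.A 5 7) (.A 5 6)) (.Y (.A 5 6) (.A 5 6)))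
  (.X (.Y (.A 5 6) (.A 5 6)) (.Y (.A 5 6) (.A 5 5)))) (.Y (.X (.Y (.A 5 6) (.A 5 6)) (.Y (.A 5
  6) (.A 5 6))) (.X (.Y (.A 5 5) (.A 5 5)) (.Y (.A 5 5) (.A 5 5)))))),
  by decide +kernel⟩

theorem c1_14 : Ok 1 3000000000000 156250000000 97656250000 39062500000 48828125000 := ⟨
  (.Y (.X (.Y (.X (.Y (.X (.A 5 5) (.A 5 5)) (.A 6 7)) (.Y (.A 6 6) (.A 6 6))) (.X (.Y (.A 6 6)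
  (.A 5 7)) (.Y (.A 5 6) (.A 5 6)))) (.Y (.X (.Y (.A 5 6) (.A 5 6)) (.Y (.A 5 6) (.A 5 5))) (.X
  (.Y (.A 5 6) (.A 5 5)) (.Y (.A 5 5) (.A 5 5))))) (.X (.Y (.X (.Y (.A 5 6) (.A 5 6)) (.Y (.A 5
  5) (.A 5 5))) (.X (.Y (.A 5 5) (.A 5 5)) (.Y (.A 5 5) (.A 5 5)))) (.Y (.X (.Y (.A 5 5) (.A 5
  5)) (.Y (.A 5 5) (.A 5 5))) (.X (.Y (.A 5 5) (.A 5 5)) (.Y (.A 5 5) (.A 5 5)))))),
  by decide +kernel⟩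

theorem c1_15 : Ok 1 3000000000000 234375000000 97656250000 39062500000 48828125000 := ⟨
  (.Y (.X (.Y (.X (.Y (.A 5 5) (.A 5 5)) (.Y (.A 5 5) (.A 5 5))) (.X (.Y (.A 5 5) (.A 5 5)) (.Y
  (.A 5 5) (.A 5 5)))) (.Y (.X (.Y (.A 5 5) (.A 5 5)) (.Y (.A 5 5) (.A 5 5))) (.X (.Y (.A 5 5)
  (.A 5 5)) (.Y (.A 5 5) (.A 5 5))))) (.X (.Y (.X (.Y (.A 5 5) (.A 5 5)) (.Y (.A 5 5) (.A 5 5)))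
  (.X (.A 6 7) (.A 5 7))) (.Y (.X (.Y (.A 5 5) (.A 5 5)) (.A 6 7)) (.X (.A 5 6) (.A 5 6))))),
  by decide +kernel⟩

theorem c1_16 : Ok 1 3000000000000 0 195312500000 39062500000 48828125000 := ⟨
  (.Y (.X (.Y (.X (.Y (.X (.A 5 6) (.A 5 6)) (.X (.A 5 6) (.A 5 6))) (.Y (.X (.A 5 6) (.A 5 5))
  (.X (.A 5 5) (.A 5 5)))) (.X (.Y (.X (.A 5 5) (.A 5 5)) (.X (.A 5 5) (.A 5 5))) (.Y (.X (.A 5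
  5) (.A 5 5)) (.X (.A 5 5) (.A 5 5))))) (.Y (.X (.Y (.X (.A 5 5) (.A 5 5)) (.X (.A 5 5) (.A 5
  5))) (.Y (.X (.A 5 5) (.A 5 5)) (.A 6 8))) (.X (.Y (.A 7 8) (.A 6 6)) (.Y (.A 6 6) (.A 5
  6))))) (.X (.Y (.X (.Y (.X (.A 5 5) (.A 5 5)) (.A 6 6)) (.Y (.A 6 6) (.A 5 6))) (.X (.Y (.A 5
  6) (.A 5 6)) (.Y (.A 5 6) (.A 5 5)))) (.Y (.X (.Y (.A 5 6) (.A 5 6)) (.Y (.A 5 6) (.A 5 5)))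
  (.X (.Y (.A 5 5) (.A 5 5)) (.Y (.A 5 5) (.A 5 5)))))),
  by decide +kernel⟩

theorem c1_17 : Ok 1 3000000000000 78125000000 195312500000 39062500000 48828125000 := ⟨
  (.Y (.X (.Y (.X (.Y (.A 6 6) (.A 6 6)) (.Y (.A 5 6) (.A 5 6))) (.X (.Y (.A 5 6) (.A 5 6)) (.Y
  (.A 5 5) (.A 5 5)))) (.Y (.X (.Y (.A 5 6) (.A 5 5)) (.Y (.A 5 5) (.A 5 5))) (.X (.Y (.A 5 5)
  (.A 5 5)) (.Y (.A 5 5) (.A 5 5))))) (.X (.Y (.X (.Y (.A 5 5) (.A 5 5)) (.Y (.A 5 5) (.A 5 5)))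
  (.X (.A 8 10) (.A 6 6))) (.Y (.X (.A 7 8) (.A 6 6)) (.X (.A 5 6) (.A 5 5))))),
  by decide +kernel⟩

theorem c1_18 : Ok 1 3000000000000 0 292968750000 78125000000 48828125000 := ⟨
  (.X (.Y (.X (.Y (.X (.Y (.A 5 5) (.A 5 5)) (.Y (.A 5 5) (.A 5 5))) (.X (.A 6 6) (.A 5 7))) (.Y
  (.X (.A 7 7) (.A 6 6)) (.X (.A 5 6) (.A 5 5)))) (.X (.Y (.X (.A 5 6) (.A 5 5)) (.X (.A 5 5)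
  (.A 5 5))) (.Y (.X (.A 5 5) (.A 5 5)) (.X (.A 5 5) (.A 5 5))))) (.Y (.X (.Y (.X (.A 5 6) (.A 5
  5)) (.X (.A 5 5) (.A 5 5))) (.Y (.X (.A 5 5) (.A 5 5)) (.X (.A 5 5) (.A 5 5)))) (.X (.Y (.X
  (.A 5 5) (.A 5 5)) (.X (.A 5 5) (.A 5 5))) (.Y (.X (.A 5 5) (.A 5 5)) (.A 6 6))))),
  by decide +kernel⟩

theorem c1_19 : Ok 1 3000000000000 156250000000 195312500000 78125000000 48828125000 := ⟨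
  (.X (.Y (.X (.Y (.X (.Y (.A 5 5) (.A 5 5)) (.Y (.A 5 5) (.A 5 5))) (.X (.A 6 7) (.A 5 7))) (.Y
  (.X (.A 6 7) (.A 5 6)) (.X (.A 5 6) (.A 5 5)))) (.X (.Y (.X (.A 5 6) (.A 5 5)) (.X (.A 5 5)
  (.A 5 5))) (.Y (.X (.A 5 5) (.A 5 5)) (.X (.A 5 5) (.A 5 5))))) (.Y (.X (.Y (.X (.A 5 6) (.A 5
  5)) (.X (.A 5 5) (.A 5 5))) (.Y (.X (.A 5 5) (.A 5 5)) (.X (.A 5 5) (.A 5 5)))) (.X (.Y (.X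
  (.A 5 5) (.A 5 5)) (.X (.A 5 5) (.A 5 5))) (.Y (.X (.A 5 5) (.A 5 5)) (.X (.A 4 6) (.A 4
  5)))))),
  by decide +kernel⟩

theorem c1_20 : Ok 1 3000000000000 156250000000 292968750000 78125000000 48828125000 := ⟨
  (.X (.Y (.X (.Y (.X (.A 5 5) (.A 5 5)) (.X (.A 5 5) (.A 5 5))) (.Y (.X (.A 5 5) (.A 5 5)) (.A
  6 8))) (.X (.Y (.A 6 6) (.A 5 5)) (.Y (.A 5 5) (.A 5 5)))) (.Y (.X (.Y (.X (.A 5 5) (.A 4 5))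
  (.A 5 6)) (.Y (.A 5 6) (.A 5 5))) (.X (.Y (.A 5 5) (.A 5 5)) (.Y (.A 5 5) (.A 5 5))))),
  by decide +kernel⟩

theorem c1_21 : Ok 1 3000000000000 312500000000 0 78125000000 48828125000 := ⟨
  (.X (.Y (.X (.Y (.X (.Y (.A 6 6) (.A 6 6)) (.Y (.X (.A 5 5) (.A 5 5)) (.X (.A 5 5) (.A 5 5))))
  (.X (.Y (.A 6 6) (.A 6 6)) (.Y (.X (.A 5 5) (.A 5 5)) (.A 6 7)))) (.Y (.X (.Y (.X (.A 5 5) (.A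
  5 5)) (.X (.A 5 5) (.A 5 5))) (.Y (.X (.A 5 5) .C) (.X (.A 5 5) .C))) (.X (.Y (.X (.A 5 5) (.A
  5 5)) (.X (.A 5 5) (.A 5 5))) (.Y (.X (.A 5 5) (.Y .C .C)) (.X (.A 5 5) (.A 5 5)))))) (.X (.Y
  (.X (.Y (.A 5 6) (.A 5 6)) (.Y (.A 6 6) (.A 5 6))) (.X (.Y (.A 5 5) (.A 5 5)) (.Y (.A 5 6) (.A
  5 5)))) (.Y (.X (.Y (.X (.A 5 5) (.A 5 5)) (.A 6 6)) (.Y (.X (.A 5 5) (.A 5 5)) (.X (.A 5 5)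
  (.A 5 5)))) (.X (.Y (.A 5 6) (.A 5 5)) (.Y (.A 6 6) (.A 5 6)))))) (.Y .C (.X (.Y (.X (.Y (.X
  (.A 5 5) .C) (.X (.A 5 5) .C)) .C) (.X (.Y (.X (.A 5 5) (.A 5 5)) (.A 5 7)) (.Y .C (.X (.A 5
  5) (.Y .C (.A 4 5)))))) .C))),
  by decide +kernel⟩

theorem c1_22 : Ok 1 3000000000000 312500000000 97656250000 78125000000 48828125000 := ⟨
  (.X (.Y (.X (.Y (.X (.Y (.A 5 5) (.A 5 5)) (.Y (.A 5 5) (.A 5 5))) (.X (.Y (.A 5 5) (.A 5 5))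
  (.Y (.A 5 5) (.A 5 5)))) (.Y (.X (.Y (.A 5 5) (.A 5 5)) (.Y (.A 5 5) (.A 5 5))) (.X (.Y (.A 5
  5) (.A 5 5)) (.Y (.A 5 5) (.A 5 5))))) (.X (.Y (.X (.A 6 6) (.A 5 7)) (.X (.A 5 5) (.A 5 5)))
  (.Y (.X (.A 5 6) (.A 5 6)) (.X (.A 5 5) (.A 5 5))))) (.Y (.X (.Y (.X (.Y (.A 5 5) (.A 5 5))
  (.Y (.A 5 6) (.A 5 5))) (.X (.Y (.A 5 5) (.A 5 5)) (.Y (.A 5 5) (.A 5 5)))) (.Y (.X (.Y (.A 5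
  6) (.A 5 5)) (.Y .C (.A 5 5))) (.X (.Y (.A 5 5) (.A 5 5)) (.Y (.A 5 5) (.A 5 5))))) (.X (.Y
  (.X (.A 5 6) (.A 5 6)) (.X (.A 5 5) (.A 5 5))) (.Y (.X (.A 5 5) (.A 5 5)) (.X (.A 5 5) (.A 5
  5)))))),
  by decide +kernel⟩

theorem c1_23 : Ok 1 3000000000000 468750000000 0 78125000000 97656250000 := ⟨
  (.Y (.X .C (.Y (.X .C (.Y (.X .C (.A 5 5)) (.X .C (.A 5 5)))) (.X (.Y .C (.X .C (.Y .C (.A 4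
  5)))) (.Y (.X (.Y .C (.A 4 4)) (.A 4 5)) (.X (.A 4 6) (.A 4 5)))))) (.X (.Y (.X (.Y (.X (.Y .C
  (.X (.A 4 5) .C)) (.Y .C (.X .C .C))) (.X (.Y (.A 5 5) (.A 4 5)) (.Y (.A 4 6) (.A 4 5)))) (.Y
  (.X (.Y .C (.X .C (.A 4 5))) (.Y .C (.A 4 5))) (.X (.A 5 6) (.A 5 5)))) (.X (.Y (.X (.A 5 5)
  (.A 5 5)) (.X (.A 4 6) (.A 4 5))) (.Y (.X (.A 4 6) (.A 4 5)) (.X (.A 4 5) (.A 4 5))))) (.Y (.X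
  (.Y (.X (.A 5 6) (.A 5 5)) (.X (.A 4 5) (.A 4 5))) (.Y (.X (.A 4 5) (.A 4 4)) (.A 5 5))) (.X
  (.Y (.X (.A 4 5) (.A 4 4)) (.A 5 5)) (.Y (.A 4 6) (.A 4 5)))))),
  by decide +kernel⟩

end Vale.Agent.P139Z.NE
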