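import Vale.Agent.P139Z.NE.Tree

/-! Certificates, part 3. -/

namespace Vale.Agent.P139Z.NE

theorem c1_24 : Ok 1 3000000000000 312500000000 195312500000 78125000000 97656250000 := ⟨
  (.Y (.X (.Y (.X (.Y (.X (.A 5 5) (.A 5 5)) (.X (.A 5 5) (.A 5 5))) (.Y (.X (.A 5 5) (.A 5 5))
  (.X (.A 4 6) (.A 4 5)))) (.X (.Y (.X (.A 4 6) (.A 4 5)) (.A 5 6)) (.Y (.A 7 8) (.A 5 5)))) (.Y
  (.X (.Y (.X (.A 5 5) (.A 4 6)) (.X (.A 4 5) (.A 4 5))) (.Y (.X (.A 4 5) (.A 4 5)) (.A 5 6)))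
  (.X (.Y (.A 5 5) (.A 5 5)) (.Y (.A 5 5) (.A 4 6))))) (.X (.Y (.X (.Y (.A 5 5) (.A 5 5)) (.Y
  (.A 5 5) (.A 4 6))) (.X (.Y (.A 4 6) (.A 4 5)) (.A 5 6))) (.Y (.X (.Y (.A 4 6) (.A 4 5)) (.A 5
  6)) (.X (.A 5 5) (.A 5 5))))),
  by decide +kernel⟩

theorem c1_25 : Ok 1 3000000000000 468750000000 195312500000 78125000000 97656250000 := ⟨
  (.Y (.X (.Y (.X (.Y (.X (.A 4 5) (.A 4 5)) (.A 5 5)) (.Y (.A 5 5) (.A 4 6))) (.X (.Y (.A 4 6)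
  (.A 4 5)) (.A 6 7))) (.Y (.X (.Y (.A 4 5) (.A 4 5)) (.A 5 5)) (.X (.A 5 5) (.A 4 5)))) (.X (.Y
  (.X (.A 5 5) (.A 4 5)) (.X (.A 4 5) (.A 4 5))) (.Y (.X (.A 4 5) (.A 4 4)) (.A 5 5)))),
  by decide +kernel⟩

theorem c1_26 : Ok 1 3000000000000 0 390625000000 156250000000 97656250000 := ⟨
  (.X (.Y (.X (.Y (.X (.Y (.X (.A 5 5) (.A 5 5)) (.A 6 6)) (.Y (.X (.A 5 5) (.A 5 5)) (.A 5 6)))
  (.X (.Y (.A 5 5) (.A 5 5)) (.Y (.A 5 5) (.A 5 5)))) (.Y (.X (.Y (.A 5 6) (.A 5 5)) (.Y (.A 5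
  5) (.A 5 5))) (.X (.Y (.A 5 5) (.A 5 5)) (.Y (.A 5 5) (.A 5 5))))) (.X (.Y (.X (.A 6 7) (.A 5
  7)) (.X (.A 5 5) (.A 5 5))) (.Y (.X (.A 5 5) (.A 5 5)) (.X (.A 5 5) (.A 5 5))))) (.Y (.X (.Y
  (.X (.Y (.A 5 5) (.A 5 5)) (.Y (.A 5 5) (.A 5 5))) (.X (.A 5 6) (.A 5 5))) (.Y (.X (.A 6 7)
  (.A 5 5)) (.X (.A 5 5) (.A 5 5)))) (.X (.Y (.X (.A 5 5) (.A 5 5)) (.X (.A 5 4) (.A 5 4))) (.Y
  (.X (.A 5 5) (.A 4 5)) (.A 5 6))))),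
  by decide +kernel⟩

theorem c1_27 : Ok 1 3000000000000 0 585937500000 156250000000 97656250000 := ⟨
  (.X (.Y (.X (.Y (.X (.A 5 5) (.A 5 4)) (.A 6 6)) (.Y (.X (.A 5 4) (.A 5 4)) (.A 5 5))) (.X (.Y
  (.A 5 5) (.A 5 4)) (.Y (.A 5 5) (.A 5 4)))) (.Y (.X (.Y (.A 5 6) (.A 5 5)) (.Y (.A 5 5) (.A 5
  4))) (.X (.A 6 6) (.A 5 5)))),
  by decide +kernel⟩

theorem c1_28 : Ok 1 3000000000000 312500000000 390625000000 156250000000 195312500000 := ⟨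
  (.Y (.X (.Y (.X (.Y (.X (.A 5 5) (.A 5 5)) (.X (.A 4 6) (.A 4 5))) (.Y (.X (.A 4 5) (.A 4 5))
  (.X (.A 4 5) (.A 4 4)))) (.X (.Y (.A 6 6) (.A 5 5)) (.Y (.A 5 5) (.A 4 5)))) (.Y (.X (.Y (.A 6
  7) (.A 5 5)) (.Y (.A 4 5) (.A 4 4))) (.X (.Y (.A 4 5) (.A 4 4)) (.A 5 5)))) (.X (.Y (.X (.Y
  (.A 5 4) (.A 4 5)) (.A 5 5)) (.X (.A 5 4) (.A 4 5))) (.Y (.X (.A 4 5) (.A 4 4)) (.X (.A 4 4)
  (.A 4 4))))),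
  by decide +kernel⟩

theorem c1_29 : Ok 1 3000000000000 625000000000 0 312500000000 195312500000 := ⟨
  (.X (.Y (.X (.Y (.X (.Y (.X (.Y (.X (.A 4 5) (.A 4 4)) (.X (.A 4 4) (.A 4 4))) (.Y (.A 4 4)
  (.A 4 4))) (.X (.Y (.A 5 6) (.A 5 5)) (.Y (.A 4 4) (.A 4 4)))) (.Y (.X (.A 4 5) (.A 4 4)) (.X
  (.A 4 4) (.A 4 4)))) (.X (.Y (.X (.Y (.A 4 5) (.A 4 5)) (.A 5 5)) (.X (.A 5 5) (.A 4 5))) (.Y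
  (.X (.A 4 4) (.A 4 4)) (.A 5 5)))) (.Y (.X (.Y (.A 4 4) (.A 4 4)) (.A 4 4)) (.X (.Y (.A 4 4)
  (.A 4 4)) (.A 4 4)))) (.X (.Y (.X (.Y (.X (.A 4 5) (.A 4 4)) (.X (.A 4 4) (.A 4 4))) (.Y (.A 4
  5) (.A 4 4))) (.X (.Y (.A 4 5) (.A 4 4)) (.A 5 5))) (.Y (.X (.A 4 5) (.A 4 4)) (.X (.A 4 4)
  (.A 3 4))))) (.Y (.X (.Y (.A 4 4) (.A 4 4)) (.A 4 4)) (.X (.Y (.A 4 4) (.A 4 4)) (.A 3 5)))),
  by decide +kernel⟩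

theorem c1_30 : Ok 1 3000000000000 625000000000 390625000000 312500000000 195312500000 := ⟨
  (.X (.Y (.X (.Y (.X (.A 5 5) (.A 4 4)) (.X (.A 4 4) (.A 4 4))) (.Y (.A 5 5) (.A 4 4))) (.X (.Y
  (.A 5 5) (.A 4 4)) (.A 5 6))) (.Y (.X (.A 4 5) (.A 3 4)) (.X (.A 4 3) (.A 3 3)))),
  by decide +kernel⟩

theorem c1_31 : Ok 1 3000000000000 0 781250000000 625000000000 390625000000 := ⟨
  (.X (.Y (.X (.Y (.X (.Y (.X (.A 5 6) (.A 5 5)) (.X (.A 5 4) (.A 5 4))) (.Y (.X (.A 5 4) (.A 5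
  4)) (.X (.A 5 4) (.A 4 5)))) (.X (.Y (.A 7 8) (.A 5 5)) (.Y (.A 5 5) (.A 5 4)))) (.Y (.X (.Y
  (.X (.A 4 5) (.A 4 4)) (.A 5 4)) (.Y (.A 5 4) (.A 4 4))) (.X (.Y (.A 5 4) (.A 4 4)) (.A 5
  4)))) (.X (.Y (.X (.Y (.A 5 4) (.A 5 4)) (.A 6 5)) (.X (.A 6 4) (.A 5 4))) (.Y (.X (.A 5 4)
  (.A 4 4)) (.X (.A 5 3) (.A 4 3))))) (.Y (.X (.Y (.X (.A 5 5) (.A 4 4)) (.X (.A 4 4) (.A 4 3)))
  (.Y (.A 4 4) (.A 4 3))) (.X (.Y (.A 5 4) (.A 4 4)) (.A 5 4)))),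
  by decide +kernel⟩

theorem c1_32 : Ok 1 3000000000000 1250000000000 0 625000000000 781250000000 := ⟨
  (.Y (.X (.Y (.X (.Y (.A 4 4) (.A 3 4)) (.A 3 3)) (.X (.Y (.A 3 3) (.A 3 3)) (.A 3 3))) (.Y (.A
  2 3) (.A 2 3))) (.X (.Y (.X (.A 4 3) (.A 3 2)) (.X (.A 3 3) (.A 3 2))) (.A 4 4))),
  by decide +kernel⟩

theorem c1_33 : Ok 1 3000000000000 0 1562500000000 1250000000000 781250000000 := ⟨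
  (.X (.Y (.X (.Y (.X (.Y (.X (.A 5 5) (.A 5 4)) (.X (.A 5 4) (.A 5 3))) (.Y (.A 5 5) (.A 5 4)))
  (.X (.Y (.A 6 5) (.A 6 4)) (.A 7 5))) (.Y (.X (.A 6 4) (.A 4 3)) (.X (.A 5 3) (.A 4 3)))) (.X
  (.Y (.X (.A 10 7) (.A 6 4)) (.X (.A 7 4) (.A 6 3))) (.Y (.A 7 5) (.A 6 4)))) (.Y (.X (.Y (.A 4
  4) (.A 4 3)) (.A 4 3)) (.X (.A 6 4) (.A 4 3)))),
  by decide +kernel⟩

theorem c1_34 : Ok 1 3000000000000 0 3125000000000 1250000000000 1562500000000 := ⟨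
  (.Y (.X (.Y (.X (.Y (.X (.A 6 4) (.A 6 3)) (.A 8 5)) (.Y (.A 6 3) (.A 6 3))) (.X (.Y (.A 8 4)
  (.F 8 3)) (.A 8 4))) (.Y (.X (.A 6 3) (.A 4 3)) (.F 10 5))) (.X (.Y (.X (.F 10 5) (.F 8 3))
  (.X (.F 10 3) (.F 8 3))) (.Y (.A 8 4) (.A 8 4)))),
  by decide +kernel⟩

theorem c1_35 : Ok 1 3000000000000 0 6250000000000 1250000000000 3125000000000 := ⟨
  (.Y (.Y (.X (.Y (.F 17 5) (.F 12 5)) (.F 17 6)) (.X (.Y (.F 12 4) (.F 12 4)) (.F 14 3))) (.Y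
  (.X (.F 20 4) (.F 14 3)) (.X (.F 17 4) (.F 14 3)))),
  by decide +kernel⟩

theorem c1_36 : Ok 1 3000000000000 0 12500000000000 1250000000000 6250000000000 := ⟨
  (.Y (.Y (.Y (.X (.F 17 4) (.F 17 3)) (.X (.Y (.X (.E 4) (.E 4)) (.E 4)) (.Y (.X (.E 4) (.E 5))
  (.E 5)))) (.Y (.X (.E 4) (.E 4)) (.E 4))) (.Y (.E 4) (.E 4))),
  by decide +kernel⟩

theorem c1_37 : Ok 1 3000000000000 0 25000000000000 1250000000000 12500000000000 := ⟨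
  (.Y (.Y (.E 4) (.E 4)) (.E 4)),
  by decide +kernel⟩

theorem c1_38 : Ok 1 3000000000000 0 50000000000000 1250000000000 25000000000000 := ⟨
  (.Y (.E 4) (.E 4)),
  by decide +kernel⟩

theorem c1_39 : Ok 1 3000000000000 0 100000000000000 1250000000000 50000000000000 := ⟨
  (.Y (.E 4) (.E 4)),
  by decide +kernel⟩

theorem c1_40 : Ok 1 3000000000000 0 200000000000000 1250000000000 100000000000000 := ⟨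
  (.Y (.E 4) (.E 4)),
  by decide +kernel⟩

theorem c2_0 : Ok 2 3500000000000 0 0 312500000000 195312500000 := ⟨
  (.X (.Y (.X (.Y (.X (.Y (.A 6 6) (.A 6 6)) (.Y (.A 5 5) (.A 5 5))) (.X (.Y (.A 6 6) (.A 6 6))
  (.Y (.A 5 5) (.A 5 5)))) (.Y (.X (.A 7 7) (.A 5 5)) (.X (.Y (.A 5 5) (.A 5 5)) (.A 5 5)))) (.X
  (.Y (.X (.Y (.A 6 6) (.A 6 6)) (.Y (.A 5 5) (.A 5 5))) (.X (.Y (.A 6 6) (.X (.A 5 5) (.A 5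
  5))) (.Y (.A 5 5) (.A 5 6)))) (.Y (.X (.Y (.A 5 5) (.A 5 5)) (.A 5 5)) (.X (.Y (.A 5 5) (.A 5
  5)) (.A 5 5))))) (.Y (.X (.Y (.X (.A 5 5) (.A 4 5)) (.X (.A 5 5) (.A 4 5))) (.Y (.A 5 5) (.A 5
  5))) (.X (.Y (.X (.A 5 5) (.A 4 5)) (.X (.A 5 5) (.A 4 5))) (.Y (.A 5 5) (.A 5 5))))),
  by decide +kernel⟩

theorem c2_1 : Ok 2 3500000000000 0 390625000000 156250000000 195312500000 := ⟨
  (.Y (.X (.Y (.X (.Y (.X (.A 5 5) (.A 5 5)) (.X (.A 5 5) (.A 5 5))) (.Y (.A 5 6) (.A 5 6))) (.X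
  (.Y (.X (.A 5 5) (.A 5 5)) (.X (.A 5 6) (.A 5 5))) (.Y (.A 6 6) (.A 6 7)))) (.Y (.X (.Y (.A 5
  5) (.A 5 5)) (.A 5 6)) (.X (.Y (.A 5 5) (.A 5 5)) (.A 6 6)))) (.X (.Y (.X (.Y (.X (.A 5 6) (.A
  5 6)) (.X (.A 6 6) (.A 5 6))) (.Y (.X (.A 5 5) (.A 5 5)) (.X (.A 5 5) (.A 5 5)))) (.X (.Y (.X
  (.Y (.A 5 6) (.A 5 6)) (.A 6 6)) (.X (.Y (.A 5 7) (.A 6 6)) (.Y (.A 5 6) (.A 5 6)))) (.Y (.X
  (.A 5 6) (.A 5 5)) (.X (.A 5 7) (.A 5 5))))) (.Y (.X (.Y (.A 5 5) (.A 5 6)) (.Y (.A 5 5) (.A 5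
  5))) (.X (.Y (.A 5 7) (.A 6 6)) (.Y (.A 5 5) (.A 5 5)))))),
  by decide +kernel⟩

theorem c2_2 : Ok 2 3500000000000 312500000000 390625000000 156250000000 195312500000 := ⟨
  (.Y (.X (.Y (.X (.A 5 5) (.A 4 5)) (.X (.A 5 5) (.A 4 5))) (.Y (.A 5 5) (.A 5 5))) (.X (.Y (.X
  (.A 5 5) (.A 4 5)) (.X (.A 5 5) (.A 4 6))) (.Y (.A 5 5) (.A 5 5)))),
  by decide +kernel⟩

end Vale.Agent.P139Z.NE
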