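import Vale.Agent.P139Z.NE.Tree

/-! Certificates, part 4. -/

namespace Vale.Agent.P139Z.NE

theorem c2_3 : Ok 2 3500000000000 625000000000 0 312500000000 390625000000 := ⟨
  (.Y (.X (.Y (.X (.A 5 5) (.A 4 4)) (.X (.A 5 5) (.A 4 4))) (.Y (.A 4 4) (.A 4 4))) (.X (.Y (.X
  (.A 5 5) (.A 4 4)) (.X (.A 5 5) (.A 4 4))) (.Y (.A 4 4) (.A 4 4)))),
  by decide +kernel⟩

theorem c2_4 : Ok 2 3500000000000 0 781250000000 156250000000 97656250000 := ⟨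
  (.X (.Y (.X (.Y (.X (.Y (.A 6 7) (.X (.A 5 6) (.A 5 6))) (.Y (.A 5 6) (.A 5 7))) (.X (.Y (.X
  (.A 6 6) (.A 5 6)) (.X (.A 6 6) (.A 5 6))) (.Y (.A 6 6) (.A 6 6)))) (.Y (.X (.A 6 6) (.A 5 6))
  (.X (.A 6 8) (.A 5 6)))) (.X (.Y (.X (.Y (.X (.A 6 6) (.A 5 7)) (.X (.A 6 6) (.A 5 7))) (.Y
  (.A 6 6) (.A 6 6))) (.X (.Y (.X (.A 6 6) (.A 5 7)) (.X (.A 6 6) (.A 5 6))) (.Y (.A 6 6) (.A 6
  6)))) (.Y (.X (.A 7 8) (.A 5 6)) (.X (.A 6 7) (.A 5 6))))) (.Y (.X (.Y (.A 6 6) (.A 6 7)) (.Y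
  (.A 5 5) (.A 5 5))) (.X (.Y (.A 6 7) (.A 6 6)) (.Y (.A 5 5) (.A 5 5))))),
  by decide +kernel⟩

theorem c2_5 : Ok 2 3500000000000 0 976562500000 156250000000 97656250000 := ⟨
  (.X (.Y (.X (.Y (.X (.Y (.X (.A 5 7) (.A 5 6)) (.A 6 7)) (.Y (.A 5 7) (.A 5 6))) (.X (.Y (.A 6
  6) (.A 5 7)) (.A 6 7))) (.Y (.X (.A 6 6) (.A 5 6)) (.X (.A 5 6) (.A 5 6)))) (.X (.Y (.X (.A 6
  7) (.A 5 7)) (.X (.A 5 7) (.A 5 6))) (.Y (.A 6 8) (.A 6 6)))) (.Y (.X (.Y (.A 5 7) (.A 5 6))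
  (.A 6 6)) (.X (.Y (.A 5 6) (.A 5 5)) (.A 5 6)))),
  by decide +kernel⟩

theorem c2_6 : Ok 2 3500000000000 312500000000 781250000000 156250000000 195312500000 := ⟨
  (.Y (.X (.Y (.X (.A 5 5) (.A 4 6)) (.X (.A 5 5) (.A 4 6))) (.Y (.A 5 5) (.A 5 5))) (.X (.Y (.X
  (.A 5 5) (.A 4 5)) (.A 6 6)) (.Y (.A 4 6) (.A 4 5)))),
  by decide +kernel⟩

theorem c2_7 : Ok 2 3500000000000 0 1171875000000 312500000000 195312500000 := ⟨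
  (.X (.Y (.X (.Y (.X (.Y (.A 6 7) (.A 5 7)) (.Y (.A 5 6) (.A 5 6))) (.X (.A 6 6) (.A 5 6))) (.Y
  (.X (.A 5 6) (.A 5 5)) (.X (.A 5 5) (.A 5 5)))) (.X (.Y (.X (.A 5 6) (.A 5 5)) (.A 6 6)) (.Y
  (.A 6 5) (.A 5 5)))) (.Y (.X (.Y (.A 5 6) (.A 5 5)) (.A 5 5)) (.X (.A 6 5) (.A 5 4)))),
  by decide +kernel⟩

theorem c2_8 : Ok 2 3500000000000 625000000000 781250000000 312500000000 390625000000 := ⟨
  (.Y (.X (.Y (.X (.A 5 5) (.A 4 4)) (.X (.A 4 5) (.A 4 4))) (.Y (.A 4 4) (.A 4 4))) (.X (.Y (.A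
  6 6) (.A 5 5)) (.A 5 5))),
  by decide +kernel⟩

theorem c2_9 : Ok 2 3500000000000 1250000000000 0 625000000000 781250000000 := ⟨
  (.Y (.X (.Y (.X (.A 4 4) (.A 3 3)) (.X (.A 4 4) (.A 3 3))) (.A 4 4)) (.X (.Y (.X (.A 3 4) (.A
  3 2)) (.A 4 5)) (.A 3 4))),
  by decide +kernel⟩

theorem c2_10 : Ok 2 3500000000000 0 1562500000000 1250000000000 781250000000 := ⟨
  (.X (.Y (.X (.Y (.X (.Y (.X (.Y (.A 5 6) (.A 5 5)) (.A 6 5)) (.X (.A 6 5) (.A 5 5))) (.Y (.X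
  (.A 5 5) (.A 4 5)) (.A 6 5))) (.X (.Y (.A 7 6) (.A 6 5)) (.Y (.A 5 4) (.A 5 4)))) (.Y (.X (.Y
  (.A 4 5) (.A 4 4)) (.A 4 4)) (.X (.A 5 4) (.A 4 3)))) (.X (.Y (.X (.A 8 6) (.A 6 4)) (.X (.A 6
  5) (.A 5 5))) (.Y (.A 6 6) (.A 6 4)))) (.Y (.X (.Y (.A 4 4) (.A 4 3)) (.A 3 4)) (.X (.A 5 5)
  (.A 4 2)))),
  by decide +kernel⟩

theorem c2_11 : Ok 2 3500000000000 0 3125000000000 1250000000000 1562500000000 := ⟨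
  (.Y (.X (.Y (.X (.Y (.A 10 6) (.A 7 5)) (.A 8 6)) (.X (.Y (.A 7 4) (.A 7 4)) (.A 7 4))) (.Y
  (.X (.A 5 4) (.A 4 3)) (.A 7 5))) (.X (.Y (.X (.F 10 5) (.A 7 4)) (.X (.F 10 3) (.A 7 4))) (.Y
  (.A 7 5) (.A 7 5)))),
  by decide +kernel⟩

theorem c2_12 : Ok 2 3500000000000 0 6250000000000 1250000000000 3125000000000 := ⟨
  (.Y (.Y (.X (.Y (.F 12 5) (.F 12 3)) (.F 12 5)) (.X (.Y (.F 12 3) (.F 12 3)) (.F 12 3))) (.Y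
  (.X (.F 17 4) (.F 12 4)) (.X (.F 17 3) (.F 14 3)))),
  by decide +kernel⟩

theorem c2_13 : Ok 2 3500000000000 0 12500000000000 1250000000000 6250000000000 := ⟨
  (.Y (.Y (.Y (.X (.F 17 3) (.F 14 3)) (.X (.Y (.E 6) (.E 4)) (.Y (.X (.E 4) (.E 4)) (.E 4))))
  (.Y (.X (.E 4) (.E 4)) (.E 4))) (.Y (.E 4) (.E 4))),
  by decide +kernel⟩

theorem c2_14 : Ok 2 3500000000000 0 25000000000000 1250000000000 12500000000000 := ⟨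
  (.Y (.Y (.E 4) (.E 4)) (.E 4)),
  by decide +kernel⟩

theorem c2_15 : Ok 2 3500000000000 0 50000000000000 1250000000000 25000000000000 := ⟨
  (.Y (.E 4) (.E 4)),
  by decide +kernel⟩

theorem c2_16 : Ok 2 3500000000000 0 100000000000000 1250000000000 50000000000000 := ⟨
  (.Y (.E 4) (.E 4)),
  by decide +kernel⟩

theorem c2_17 : Ok 2 3500000000000 0 200000000000000 1250000000000 100000000000000 := ⟨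
  (.Y (.E 4) (.E 4)),
  by decide +kernel⟩

theorem c3_0 : Ok 3 4000000000000 0 0 625000000000 390625000000 := ⟨
  (.X (.Y (.X (.Y (.X (.Y (.A 6 6) (.A 6 6)) (.Y (.A 5 5) (.A 5 5))) (.X (.Y (.A 6 6) (.A 6 6))
  (.Y (.A 5 5) (.A 5 5)))) (.Y (.X (.A 5 5) (.A 4 5)) (.X (.A 5 5) (.A 4 5)))) (.X (.Y (.X (.Y
  (.A 6 6) (.A 6 6)) (.Y (.A 5 5) (.A 5 5))) (.X (.Y (.A 6 6) (.A 6 6)) (.Y (.A 5 5) (.A 5 5))))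
  (.Y (.X (.A 5 5) (.A 4 5)) (.X (.A 5 5) (.A 4 5))))) (.Y (.X (.Y (.A 4 5) (.A 4 5)) (.A 4 5))
  (.X (.Y (.A 4 5) (.A 4 5)) (.A 4 5)))),
  by decide +kernel⟩

theorem c3_1 : Ok 3 4000000000000 0 781250000000 625000000000 390625000000 := ⟨
  (.X (.Y (.X (.Y (.X (.Y (.A 6 6) (.A 6 6)) (.A 6 7)) (.X (.Y (.A 6 6) (.A 6 6)) (.A 6 6))) (.Y
  (.X (.A 5 5) (.A 4 5)) (.X (.A 5 5) (.A 4 5)))) (.X (.Y (.X (.Y (.A 6 6) (.A 6 6)) (.A 6 6))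
  (.X (.Y (.A 6 6) (.A 6 6)) (.A 6 6))) (.Y (.X (.A 5 5) (.A 4 5)) (.X (.A 5 5) (.A 4 5))))) (.Y
  (.X (.Y (.A 4 5) (.A 4 5)) (.A 4 4)) (.X (.Y (.A 4 5) (.A 4 5)) (.A 4 5)))),
  by decide +kernel⟩

theorem c3_2 : Ok 3 4000000000000 1250000000000 0 625000000000 781250000000 := ⟨
  (.Y (.X (.Y (.A 4 4) (.A 4 4)) (.A 3 3)) (.X (.Y (.A 4 4) (.A 4 4)) (.A 3 3))),
  by decide +kernel⟩

theorem c3_3 : Ok 3 4000000000000 0 1562500000000 1250000000000 781250000000 := ⟨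
  (.X (.Y (.X (.Y (.X (.Y (.X (.Y (.A 6 6) (.A 6 6)) (.A 6 6)) (.X (.Y (.A 6 6) (.A 6 6)) (.A 6
  6))) (.Y (.A 6 7) (.A 6 6))) (.X (.Y (.X (.A 6 7) (.A 5 6)) (.X (.A 6 6) (.A 5 6))) (.Y (.A 6
  5) (.A 5 6)))) (.Y (.X (.A 6 6) (.A 4 4)) (.X (.A 5 5) (.A 4 4)))) (.X (.Y (.X (.Y (.A 7 7)
  (.A 6 6)) (.A 6 7)) (.X (.A 7 7) (.A 6 5))) (.Y (.A 7 7) (.A 6 5)))) (.Y (.X (.Y (.A 4 4) (.A
  4 4)) (.A 3 4)) (.X (.A 5 5) (.A 3 4)))),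
  by decide +kernel⟩

theorem c3_4 : Ok 3 4000000000000 0 3125000000000 1250000000000 1562500000000 := ⟨
  (.Y (.X (.Y (.X (.Y (.X (.A 6 6) (.A 6 4)) (.A 7 6)) (.A 10 7)) (.X (.Y (.A 7 5) (.A 7 5)) (.A
  7 5))) (.Y (.X (.A 5 4) (.A 4 3)) (.A 7 5))) (.X (.Y (.X (.A 8 6) (.A 7 4)) (.A 12 12)) (.Y
  (.A 7 4) (.A 7 4)))),
  by decide +kernel⟩

theorem c3_5 : Ok 3 4000000000000 0 6250000000000 1250000000000 3125000000000 := ⟨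
  (.Y (.Y (.X (.Y (.A 10 7) (.A 10 6)) (.A 10 6)) (.X (.A 17 14) (.F 12 3))) (.Y (.X (.F 14 5)
  (.F 12 3)) (.X (.F 14 5) (.F 12 3)))),
  by decide +kernel⟩

theorem c3_6 : Ok 3 4000000000000 0 12500000000000 1250000000000 6250000000000 := ⟨
  (.Y (.Y (.Y (.X (.F 17 3) (.F 14 3)) (.X (.Y (.E 5) (.E 4)) (.Y (.E 7) (.E 4)))) (.Y (.X (.E
  4) (.E 4)) (.E 4))) (.Y (.E 4) (.E 4))),
  by decide +kernel⟩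

theorem c3_7 : Ok 3 4000000000000 0 25000000000000 1250000000000 12500000000000 := ⟨
  (.Y (.E 8) (.E 4)),
  by decide +kernel⟩

theorem c3_8 : Ok 3 4000000000000 0 50000000000000 1250000000000 25000000000000 := ⟨
  (.Y (.E 4) (.E 4)),
  by decide +kernel⟩

theorem c3_9 : Ok 3 4000000000000 0 100000000000000 1250000000000 50000000000000 := ⟨
  (.Y (.E 4) (.E 4)),
  by decide +kernel⟩

theorem c3_10 : Ok 3 4000000000000 0 200000000000000 1250000000000 100000000000000 := ⟨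
  (.Y (.E 4) (.E 4)),
  by decide +kernel⟩

theorem c4_0 : Ok 4 4500000000000 0 0 1250000000000 781250000000 := ⟨
  (.X (.Y (.X (.Y (.X (.Y (.X (.A 6 6) (.A 5 5)) (.X (.A 5 7) (.A 5 5))) (.Y (.A 5 5) (.A 5 5)))
  (.X (.Y (.X (.A 5 7) (.A 5 5)) (.X (.A 5 7) (.A 5 5))) (.Y (.A 5 5) (.A 5 5)))) (.Y (.X (.A 5
  5) (.A 4 4)) (.X (.A 5 5) (.A 4 4)))) (.X (.Y (.X (.Y (.X (.A 5 6) (.A 5 5)) (.X (.A 5 6) (.A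
  5 5))) (.Y (.A 5 5) (.A 5 5))) (.X (.Y (.A 8 10) (.A 7 7)) (.Y (.A 5 5) (.A 5 5)))) (.Y (.X
  (.A 5 5) (.A 4 4)) (.X (.A 5 5) (.A 4 4))))) (.Y (.X (.Y (.A 3 5) (.A 3 5)) (.A 3 3)) (.X (.A
  5 6) (.A 3 3)))),
  by decide +kernel⟩

theorem c4_1 : Ok 4 4500000000000 0 1562500000000 1250000000000 781250000000 := ⟨
  (.X (.Y (.X (.Y (.X (.Y (.A 6 8) (.A 6 7)) (.A 6 7)) (.X (.Y (.A 6 7) (.A 6 7)) (.A 6 6))) (.Y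
  (.X (.A 5 5) (.A 4 4)) (.A 6 6))) (.X (.Y (.X (.Y (.A 6 6) (.A 6 6)) (.A 6 6)) (.X (.A 8 8)
  (.A 6 6))) (.Y (.A 6 6) (.A 6 5)))) (.Y (.X (.A 5 5) (.A 3 4)) (.X (.A 5 5) (.A 3 4)))),
  by decide +kernel⟩

theorem c4_2 : Ok 4 4500000000000 0 3125000000000 1250000000000 1562500000000 := ⟨
  (.Y (.X (.Y (.X (.Y (.X (.A 7 7) (.A 6 5)) (.A 10 8)) (.Y (.A 5 6) (.A 6 4))) (.X (.Y (.A 7 7)
  (.A 7 6)) (.A 7 5))) (.Y (.A 8 8) (.A 6 6))) (.X (.Y (.X (.A 8 7) (.A 7 5)) (.A 12 10)) (.Y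
  (.A 7 4) (.A 7 4)))),
  by decide +kernel⟩

end Vale.Agent.P139Z.NE
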