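import Vale.Agent.P139Z.NE.Tree

/-! Certificates, part 5. -/

namespace Vale.Agent.P139Z.NE

theorem c4_3 : Ok 4 4500000000000 0 6250000000000 1250000000000 3125000000000 := ⟨
  (.Y (.Y (.X (.Y (.A 10 6) (.A 10 6)) (.A 10 6)) (.X (.A 14 10) (.A 10 6))) (.Y (.X (.F 14 5)
  (.F 12 3)) (.X (.F 14 4) (.F 12 3)))),
  by decide +kernel⟩

theorem c4_4 : Ok 4 4500000000000 0 12500000000000 1250000000000 6250000000000 := ⟨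
  (.Y (.Y (.Y (.F 20 6) (.F 20 4)) (.Y (.X (.E 4) (.E 4)) (.E 4))) (.Y (.E 4) (.E 4))),
  by decide +kernel⟩

theorem c4_5 : Ok 4 4500000000000 0 25000000000000 1250000000000 12500000000000 := ⟨
  (.Y (.E 7) (.E 4)),
  by decide +kernel⟩

theorem c4_6 : Ok 4 4500000000000 0 50000000000000 1250000000000 25000000000000 := ⟨
  (.Y (.E 4) (.E 4)),
  by decide +kernel⟩

theorem c4_7 : Ok 4 4500000000000 0 100000000000000 1250000000000 50000000000000 := ⟨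
  (.Y (.E 4) (.E 4)),
  by decide +kernel⟩

theorem c4_8 : Ok 4 4500000000000 0 200000000000000 1250000000000 100000000000000 := ⟨
  (.Y (.E 4) (.E 4)),
  by decide +kernel⟩

theorem c5_0 : Ok 5 5000000000000 0 0 1250000000000 1562500000000 := ⟨
  (.Y (.X (.Y (.X (.Y (.X (.Y (.A 6 6) (.A 6 6)) (.A 5 6)) (.X (.Y (.A 6 6) (.A 6 6)) (.A 5 6)))
  (.Y (.A 5 6) (.A 5 6))) (.X (.Y (.X (.Y (.A 6 6) (.A 6 6)) (.A 5 6)) (.X (.Y (.A 5 7) (.A 5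
  7)) (.A 5 6))) (.Y (.A 5 5) (.A 5 5)))) (.Y (.X (.A 4 5) (.A 3 3)) (.X (.A 4 5) (.A 3 3))))
  (.X (.Y (.X (.Y (.X (.A 7 7) (.A 5 6)) (.X (.A 7 7) (.A 5 6))) (.Y (.A 5 5) (.A 5 6))) (.X (.Y
  (.X (.A 7 6) (.A 5 6)) (.X (.A 6 7) (.A 6 5))) (.Y (.A 5 6) (.A 5 6)))) (.Y (.X (.A 5 4) (.A 3
  4)) (.A 8 8)))),
  by decide +kernel⟩

theorem c5_1 : Ok 5 5000000000000 0 3125000000000 1250000000000 1562500000000 := ⟨
  (.Y (.X (.Y (.X (.Y (.X (.A 6 7) (.A 6 5)) (.A 8 8)) (.A 7 7)) (.X (.Y (.A 7 8) (.A 7 7)) (.A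
  7 6))) (.Y (.A 6 6) (.A 6 6))) (.X (.Y (.X (.A 10 8) (.A 7 5)) (.X (.A 8 7) (.A 7 5))) (.Y (.A
  6 6) (.A 7 4)))),
  by decide +kernel⟩

theorem c5_2 : Ok 5 5000000000000 0 6250000000000 1250000000000 3125000000000 := ⟨
  (.Y (.Y (.X (.Y (.A 10 7) (.A 10 6)) (.A 10 6)) (.X (.A 14 10) (.A 10 6))) (.Y (.X (.A 12 8)
  (.A 10 6)) (.A 20 17))),
  by decide +kernel⟩

theorem c5_3 : Ok 5 5000000000000 0 12500000000000 1250000000000 6250000000000 := ⟨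
  (.Y (.Y (.Y (.F 20 6) (.F 20 4)) (.Y (.X (.E 4) (.E 4)) (.E 4))) (.Y (.E 4) (.E 4))),
  by decide +kernel⟩

theorem c5_4 : Ok 5 5000000000000 0 25000000000000 1250000000000 12500000000000 := ⟨
  (.Y (.E 7) (.E 4)),
  by decide +kernel⟩

theorem c5_5 : Ok 5 5000000000000 0 50000000000000 1250000000000 25000000000000 := ⟨
  (.Y (.E 4) (.E 4)),
  by decide +kernel⟩

theorem c5_6 : Ok 5 5000000000000 0 100000000000000 1250000000000 50000000000000 := ⟨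
  (.Y (.E 4) (.E 4)),
  by decide +kernel⟩

theorem c5_7 : Ok 5 5000000000000 0 200000000000000 1250000000000 100000000000000 := ⟨
  (.Y (.E 4) (.E 4)),
  by decide +kernel⟩

theorem c6_0 : Ok 6 5500000000000 0 0 1250000000000 3125000000000 := ⟨
  (.Y (.Y (.X (.Y (.X (.Y (.X (.A 6 6) (.A 5 5)) (.X (.A 6 6) (.A 5 5))) (.Y (.A 5 5) (.A 5 5)))
  (.X (.Y (.X (.A 6 6) (.A 5 5)) (.X (.A 6 6) (.A 5 5))) (.Y (.A 5 5) (.A 5 5)))) (.Y (.A 5 6)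
  (.A 5 6))) (.X (.Y (.X (.Y (.X (.A 6 6) (.A 5 6)) (.A 10 10)) (.A 6 8)) (.X (.Y (.A 7 8) (.A 7
  7)) (.A 6 7))) (.Y (.A 5 6) (.A 5 6)))) (.Y (.X (.Y (.X (.Y (.A 7 7) (.A 7 7)) (.A 6 7)) (.X
  (.Y (.A 7 7) (.A 7 7)) (.A 6 7))) (.Y (.A 6 5) (.A 6 5))) (.X (.Y (.X (.A 8 10) (.A 6 7)) (.X
  (.A 8 8) (.A 7 5))) (.Y (.A 6 5) (.A 6 6))))),
  by decide +kernel⟩

theorem c6_1 : Ok 6 5500000000000 0 6250000000000 1250000000000 3125000000000 := ⟨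
  (.Y (.Y (.X (.Y (.A 10 10) (.A 10 7)) (.A 10 6)) (.X (.A 14 10) (.A 10 6))) (.Y (.X (.A 12 8)
  (.A 10 6)) (.A 17 14))),
  by decide +kernel⟩

theorem c6_2 : Ok 6 5500000000000 0 12500000000000 1250000000000 6250000000000 := ⟨
  (.Y (.Y (.Y (.A 17 14) (.F 17 6)) (.Y (.X (.E 4) (.E 4)) (.E 4))) (.Y (.E 4) (.E 4))),
  by decide +kernel⟩

theorem c6_3 : Ok 6 5500000000000 0 25000000000000 1250000000000 12500000000000 := ⟨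
  (.Y (.Y (.E 4) (.E 4)) (.E 4)),
  by decide +kernel⟩

theorem c6_4 : Ok 6 5500000000000 0 50000000000000 1250000000000 25000000000000 := ⟨
  (.Y (.E 4) (.E 4)),
  by decide +kernel⟩

theorem c6_5 : Ok 6 5500000000000 0 100000000000000 1250000000000 50000000000000 := ⟨
  (.Y (.E 4) (.E 4)),
  by decide +kernel⟩

theorem c6_6 : Ok 6 5500000000000 0 200000000000000 1250000000000 100000000000000 := ⟨
  (.Y (.E 4) (.E 4)),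
  by decide +kernel⟩

theorem c7_0 : Ok 7 6000000000000 0 0 1250000000000 6250000000000 := ⟨
  (.Y (.Y (.Y (.X (.Y (.X (.Y (.A 7 7) (.A 7 7)) (.A 6 6)) (.X (.Y (.A 6 8) (.A 6 8)) (.A 6 6)))
  (.Y (.A 5 5) (.A 5 5))) (.X (.Y (.X (.Y (.A 6 8) (.A 6 7)) (.A 6 6)) (.X (.Y (.A 6 7) (.A 6
  7)) (.A 6 6))) (.Y (.A 5 5) (.A 5 5)))) (.Y (.X (.Y (.X (.Y (.A 6 7) (.A 7 6)) (.A 6 6)) (.X
  (.A 8 8) (.A 6 6))) (.Y (.A 5 6) (.A 6 5))) (.X (.Y (.X (.A 8 8) (.A 6 6)) (.X (.A 8 8) (.A 6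
  7))) (.A 10 7)))) (.Y (.Y (.X (.Y (.A 10 10) (.A 10 8)) (.A 8 8)) (.X (.A 14 12) (.A 10 6)))
  (.Y (.X (.A 12 8) (.A 10 6)) (.A 17 14)))),
  by decide +kernel⟩

theorem c7_1 : Ok 7 6000000000000 0 12500000000000 1250000000000 6250000000000 := ⟨
  (.Y (.Y (.Y (.A 17 14) (.A 17 14)) (.Y (.X (.E 5) (.E 6)) (.E 5))) (.Y (.E 4) (.E 4))),
  by decide +kernel⟩

theorem c7_2 : Ok 7 6000000000000 0 25000000000000 1250000000000 12500000000000 := ⟨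
  (.Y (.Y (.E 4) (.E 4)) (.E 4)),
  by decide +kernel⟩

theorem c7_3 : Ok 7 6000000000000 0 50000000000000 1250000000000 25000000000000 := ⟨
  (.Y (.E 4) (.E 4)),
  by decide +kernel⟩

theorem c7_4 : Ok 7 6000000000000 0 100000000000000 1250000000000 50000000000000 := ⟨
  (.Y (.E 4) (.E 4)),
  by decide +kernel⟩

theorem c7_5 : Ok 7 6000000000000 0 200000000000000 1250000000000 100000000000000 := ⟨
  (.Y (.E 4) (.E 4)),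
  by decide +kernel⟩

theorem c8_0 : Ok 8 6500000000000 0 0 1250000000000 50000000000000 := ⟨
  (.Y (.Y (.Y (.Y (.Y (.Y (.X (.Y (.X (.Y (.A 6 6) (.A 6 6)) (.A 5 6)) (.X (.Y (.A 6 6) (.A 6
  6)) (.A 5 6))) (.Y (.A 4 6) (.A 4 6))) (.X (.Y (.X (.Y (.A 6 6) (.A 6 7)) (.A 5 6)) (.X (.A 8
  8) (.A 6 5))) (.Y (.A 5 5) (.A 5 5)))) (.Y (.X (.Y (.X (.A 8 7) (.A 6 6)) (.X (.A 7 8) (.A 6
  6))) (.A 8 8)) (.X (.Y (.X (.A 7 8) (.A 6 6)) (.A 10 10)) (.A 8 7)))) (.Y (.Y (.X (.Y (.A 10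
  8) (.A 10 8)) (.A 8 7)) (.X (.A 14 12) (.A 8 8))) (.Y (.X (.A 12 10) (.A 10 6)) (.A 17 14))))
  (.Y (.Y (.Y (.A 17 14) (.A 17 14)) (.Y (.X (.D 12) (.D 10)) (.X (.E 4) (.E 4)))) (.Y (.E 4)
  (.E 4)))) (.Y (.Y (.E 4) (.E 4)) (.E 4))) (.Y (.E 4) (.E 4))),
  by decide +kernel⟩

theorem c8_1 : Ok 8 6500000000000 0 100000000000000 1250000000000 50000000000000 := ⟨
  (.Y (.E 4) (.E 4)),
  by decide +kernel⟩

theorem c8_2 : Ok 8 6500000000000 0 200000000000000 1250000000000 100000000000000 := ⟨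
  (.Y (.E 4) (.E 4)),
  by decide +kernel⟩

theorem c9_0 : Ok 9 7000000000000 0 0 1250000000000 200000000000000 := ⟨
  (.Y (.Y (.Y (.Y (.Y (.Y (.Y (.Y (.X (.Y (.X (.A 7 8) (.A 5 6)) (.X (.A 7 7) (.A 5 6))) (.A 6
  7)) (.X (.Y (.X (.A 7 7) (.A 5 6)) (.X (.A 7 7) (.A 6 5))) (.A 7 6))) (.Y (.X (.Y (.X (.A 7 7)
  (.A 6 5)) (.A 10 10)) (.A 7 7)) (.X (.Y (.A 8 10) (.A 8 10)) (.A 7 7)))) (.Y (.Y (.X (.Y (.A 8
  10) (.A 8 10)) (.A 8 7)) (.X (.A 12 12) (.A 8 7))) (.Y (.X (.A 12 10) (.A 10 6)) (.A 17 14))))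
  (.Y (.Y (.Y (.A 14 12) (.A 14 14)) (.Y (.X (.D 12) (.D 12)) (.D 14))) (.Y (.D 14) (.E 4))))
  (.Y (.Y (.E 4) (.E 4)) (.E 4))) (.Y (.E 4) (.E 4))) (.Y (.E 4) (.E 4))) (.Y (.E 4) (.E 4))),
  by decide +kernel⟩

theorem c10_0 : Ok 10 7500000000000 0 0 1250000000000 200000000000000 := ⟨
  (.Y (.Y (.Y (.Y (.Y (.Y (.Y (.Y (.X (.Y (.X (.A 7 7) (.A 5 6)) (.X (.A 7 7) (.A 5 6))) (.A 6
  6)) (.X (.Y (.X (.A 7 7) (.A 5 6)) (.X (.A 7 7) (.A 5 6))) (.A 6 6))) (.Y (.X (.Y (.A 8 10)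
  (.A 8 8)) (.A 6 7)) (.X (.Y (.A 8 8) (.A 8 8)) (.A 7 6)))) (.Y (.Y (.X (.Y (.A 8 8) (.A 10 7))
  (.A 7 7)) (.X (.A 12 10) (.A 8 7))) (.Y (.X (.A 12 10) (.A 10 7)) (.A 14 14)))) (.Y (.Y (.Y
  (.A 14 12) (.A 14 12)) (.A 20 17)) (.Y (.D 17) (.E 4)))) (.Y (.Y (.E 4) (.E 4)) (.E 4))) (.Y
  (.E 4) (.E 4))) (.Y (.E 4) (.E 4))) (.Y (.E 4) (.E 4))),
  by decide +kernel⟩

end Vale.Agent.P139Z.NE
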