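import Vale.Agent.P139Z.NE.Tree

/-! Certificates, part 6. -/

namespace Vale.Agent.P139Z.NE

theorem c11_0 : Ok 11 8000000000000 0 0 1250000000000 200000000000000 := ⟨
  (.Y (.Y (.Y (.Y (.Y (.Y (.Y (.Y (.X (.Y (.A 8 8) (.A 8 8)) (.A 5 7)) (.X (.Y (.A 8 8) (.A 8
  8)) (.A 6 6))) (.Y (.X (.Y (.A 8 8) (.A 8 8)) (.A 6 6)) (.X (.Y (.A 8 8) (.A 8 8)) (.A 7 6))))
  (.Y (.Y (.X (.A 10 12) (.A 7 7)) (.X (.A 10 10) (.A 8 7))) (.Y (.X (.A 10 12) (.A 8 8)) (.A 14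
  12)))) (.Y (.Y (.Y (.A 14 12) (.A 14 12)) (.A 20 17)) (.Y (.D 17) (.E 4)))) (.Y (.Y (.E 4) (.E
  4)) (.E 4))) (.Y (.E 4) (.E 4))) (.Y (.E 4) (.E 4))) (.Y (.E 4) (.E 4))),
  by decide +kernel⟩

theorem c12_0 : Ok 12 8500000000000 0 0 1250000000000 200000000000000 := ⟨
  (.Y (.Y (.Y (.Y (.Y (.Y (.Y (.Y (.X (.Y (.A 7 7) (.A 7 7)) (.A 5 6)) (.X (.Y (.A 7 8) (.A 7
  8)) (.A 6 6))) (.Y (.X (.Y (.A 7 8) (.A 7 8)) (.A 6 6)) (.X (.A 12 12) (.A 7 6)))) (.Y (.Y (.X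
  (.A 10 10) (.A 7 7)) (.X (.A 10 10) (.A 8 7))) (.Y (.A 14 12) (.A 12 14)))) (.Y (.Y (.Y (.A 14
  12) (.A 14 12)) (.A 20 17)) (.Y (.A 20 17) (.D 17)))) (.Y (.Y (.E 4) (.E 4)) (.E 4))) (.Y (.E
  4) (.E 4))) (.Y (.E 4) (.E 4))) (.Y (.E 4) (.E 4))),
  by decide +kernel⟩

theorem c13_0 : Ok 13 9000000000000 0 0 1250000000000 200000000000000 := ⟨
  (.Y (.Y (.Y (.Y (.Y (.Y (.Y (.Y (.X (.Y (.A 7 7) (.A 7 7)) (.A 5 6)) (.X (.Y (.A 7 7) (.A 7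
  7)) (.A 6 6))) (.Y (.X (.Y (.A 7 8) (.A 7 8)) (.A 6 6)) (.X (.A 10 10) (.A 6 7)))) (.Y (.Y (.X
  (.A 10 10) (.A 7 6)) (.A 14 14)) (.Y (.A 12 12) (.A 12 12)))) (.Y (.Y (.Y (.A 14 10) (.A 14
  12)) (.A 20 17)) (.Y (.A 20 17) (.D 17)))) (.Y (.Y (.Y (.E 4) (.E 4)) (.E 4)) (.E 4))) (.Y (.E
  4) (.E 4))) (.Y (.E 4) (.E 4))) (.Y (.E 4) (.E 4))),
  by decide +kernel⟩

theorem c14_0 : Ok 14 9500000000000 0 0 1250000000000 200000000000000 := ⟨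
  (.Y (.Y (.Y (.Y (.Y (.Y (.Y (.Y (.X (.Y (.A 7 7) (.A 7 7)) (.A 5 6)) (.X (.A 10 10) (.A 6 6)))
  (.Y (.X (.A 10 10) (.A 6 6)) (.X (.A 10 10) (.A 6 7)))) (.Y (.Y (.X (.A 10 10) (.A 7 6)) (.A
  12 12)) (.Y (.A 12 10) (.A 12 10)))) (.Y (.Y (.Y (.A 12 12) (.A 14 10)) (.A 17 17)) (.Y (.A 20
  17) (.D 20)))) (.Y (.Y (.Y (.D 17) (.E 4)) (.E 4)) (.E 4))) (.Y (.E 4) (.E 4))) (.Y (.E 4) (.E
  4))) (.Y (.E 4) (.E 4))),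
  by decide +kernel⟩

theorem c15_0 : Ok 15 10000000000000 0 0 1250000000000 20500000000000 := ⟨
  (.Y (.Y (.Y (.Y (.Y (.X (.A 8 8) (.A 5 6)) (.X (.A 8 8) (.A 5 6))) (.Y (.X (.A 8 8) (.A 6 5))
  (.X (.A 8 8) (.A 6 6)))) (.Y (.Y (.A 12 12) (.A 10 10)) (.Y (.A 10 10) (.A 10 12)))) (.Y (.Y
  (.A 17 14) (.A 14 14)) (.Y (.A 17 14) (.A 17 14)))) (.Y (.Y (.Y (.A 17 14) (.D 17)) (.Y (.D
  17) (.E 4))) (.Y (.E 4) (.E 4)))),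
  by decide +kernel⟩

theorem c16_0 : Ok 16 10500000000000 0 0 1250000000000 20500000000000 := ⟨
  (.Y (.Y (.Y (.Y (.Y (.X (.A 7 8) (.A 5 6)) (.X (.A 8 8) (.A 5 6))) (.Y (.X (.A 8 8) (.A 6 5))
  (.A 10 10))) (.Y (.Y (.A 10 10) (.A 10 10)) (.Y (.A 10 10) (.A 10 10)))) (.Y (.Y (.A 14 14)
  (.A 14 12)) (.Y (.A 14 14) (.A 17 14)))) (.Y (.Y (.Y (.A 17 14) (.D 20)) (.Y (.D 17) (.D 17)))
  (.Y (.E 4) (.E 4)))),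
  by decide +kernel⟩

theorem c17_0 : Ok 17 11000000000000 0 0 1250000000000 20500000000000 := ⟨
  (.Y (.Y (.Y (.Y (.Y (.A 10 10) (.A 10 10)) (.Y (.A 10 10) (.A 10 10))) (.Y (.Y (.A 10 10) (.A
  10 10)) (.Y (.A 10 10) (.A 10 10)))) (.Y (.Y (.A 14 12) (.A 14 12)) (.Y (.A 14 14) (.A 17
  14)))) (.Y (.Y (.Y (.A 17 14) (.D 20)) (.Y (.D 17) (.D 17))) (.Y (.Y (.E 4) (.E 4)) (.E 4)))),
  by decide +kernel⟩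

theorem c18_0 : Ok 18 11500000000000 0 0 1250000000000 20500000000000 := ⟨
  (.Y (.Y (.Y (.Y (.Y (.A 8 10) (.A 8 10)) (.Y (.A 10 8) (.A 10 10))) (.Y (.Y (.A 10 10) (.A 10
  10)) (.A 14 14))) (.Y (.Y (.A 12 14) (.A 14 12)) (.Y (.A 14 12) (.A 17 14)))) (.Y (.Y (.Y (.A
  17 14) (.A 17 14)) (.Y (.D 17) (.D 17))) (.Y (.Y (.D 20) (.E 4)) (.E 4)))),
  by decide +kernel⟩

theorem c19_0 : Ok 19 12000000000000 0 0 1250000000000 20500000000000 := ⟨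
  (.Y (.Y (.Y (.Y (.Y (.A 8 8) (.A 8 10)) (.Y (.A 8 10) (.A 10 8))) (.Y (.Y (.A 10 8) (.A 10
  10)) (.A 12 12))) (.Y (.Y (.A 12 12) (.A 14 12)) (.Y (.A 14 12) (.A 14 17)))) (.Y (.Y (.Y (.A
  17 14) (.A 17 14)) (.Y (.D 17) (.D 17))) (.Y (.Y (.D 20) (.E 4)) (.E 4)))),
  by decide +kernel⟩

theorem c20_0 : Ok 20 12500000000000 0 0 1250000000000 20500000000000 := ⟨
  (.Y (.Y (.Y (.Y (.Y (.A 8 8) (.A 8 8)) (.Y (.A 8 10) (.A 8 10))) (.Y (.A 14 14) (.A 12 12)))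
  (.Y (.Y (.A 12 12) (.A 12 14)) (.Y (.A 14 12) (.A 14 14)))) (.Y (.Y (.Y (.A 17 14) (.A 17 14))
  (.Y (.D 20) (.D 17))) (.Y (.Y (.D 20) (.D 20)) (.E 4)))),
  by decide +kernel⟩

theorem c21_0 : Ok 21 13000000000000 0 0 1250000000000 20500000000000 := ⟨
  (.Y (.Y (.Y (.Y (.Y (.A 8 8) (.A 8 8)) (.Y (.A 8 10) (.A 8 10))) (.Y (.A 12 12) (.A 12 12)))
  (.Y (.Y (.A 12 12) (.A 12 12)) (.Y (.A 14 12) (.A 14 14)))) (.Y (.Y (.Y (.A 17 14) (.A 17 14))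
  (.Y (.D 20) (.D 17))) (.Y (.Y (.D 20) (.D 20)) (.Y (.Y (.X (.E 4) (.E 4)) (.E 4)) (.E 4))))),
  by decide +kernel⟩

theorem c22_0 : Ok 22 13500000000000 0 0 1250000000000 20500000000000 := ⟨
  (.Y (.Y (.Y (.Y (.A 10 10) (.A 10 12)) (.Y (.A 12 10) (.A 12 10))) (.Y (.Y (.A 12 12) (.A 12
  12)) (.Y (.A 14 12) (.A 14 12)))) (.Y (.Y (.Y (.A 17 14) (.A 17 14)) (.Y (.D 20) (.D 17))) (.Y
  (.Y (.D 20) (.D 20)) (.Y (.D 20) (.E 4))))),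
  by decide +kernel⟩

end Vale.Agent.P139Z.NE
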