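import Vale.Agent.P139Z.NE.Tree

/-! Certificates, part 7. -/

namespace Vale.Agent.P139Z.NE

theorem c23_0 : Ok 23 14000000000000 0 0 1250000000000 20500000000000 := ⟨
  (.Y (.Y (.Y (.Y (.A 10 10) (.A 10 10)) (.Y (.A 10 12) (.A 12 10))) (.Y (.Y (.A 12 12) (.A 12
  12)) (.Y (.A 14 12) (.A 14 12)))) (.Y (.Y (.A 20 20) (.Y (.D 20) (.D 17))) (.Y (.Y (.D 20) (.D
  20)) (.Y (.D 20) (.D 20))))),
  by decide +kernel⟩

theorem c24_0 : Ok 24 14500000000000 0 0 1250000000000 20500000000000 := ⟨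
  (.Y (.Y (.Y (.Y (.A 10 10) (.A 10 10)) (.Y (.A 10 12) (.A 12 10))) (.Y (.Y (.A 12 12) (.A 12
  12)) (.Y (.A 14 12) (.A 14 12)))) (.Y (.Y (.A 20 20) (.Y (.D 20) (.D 17))) (.Y (.Y (.D 20) (.D
  20)) (.Y (.D 20) (.D 20))))),
  by decide +kernel⟩

theorem c25_0 : Ok 25 15000000000000 0 0 1250000000000 20500000000000 := ⟨
  (.Y (.Y (.Y (.Y (.A 10 10) (.A 10 10)) (.Y (.A 10 10) (.A 12 10))) (.Y (.Y (.A 12 10) (.A 12
  12)) (.A 20 20))) (.Y (.Y (.A 20 17) (.Y (.D 20) (.D 17))) (.Y (.Y (.D 20) (.D 20)) (.Y (.D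
  20) (.D 20))))),
  by decide +kernel⟩

theorem c26_0 : Ok 26 15500000000000 0 0 1250000000000 20500000000000 := ⟨
  (.Y (.Y (.Y (.Y (.A 10 10) (.A 10 10)) (.Y (.A 10 10) (.A 12 10))) (.Y (.Y (.A 12 10) (.A 12
  12)) (.A 20 17))) (.Y (.Y (.A 20 17) (.Y (.D 20) (.D 17))) (.Y (.Y (.D 20) (.D 20)) (.Y (.D
  20) (.D 20))))),
  by decide +kernel⟩

theorem c27_0 : Ok 27 16000000000000 0 0 1250000000000 20500000000000 := ⟨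
  (.Y (.Y (.Y (.Y (.A 10 10) (.A 10 10)) (.Y (.A 10 10) (.A 10 12))) (.Y (.Y (.A 12 10) (.A 12
  12)) (.A 20 17))) (.Y (.Y (.A 20 17) (.Y (.D 20) (.D 17))) (.Y (.Y (.D 17) (.D 20)) (.Y (.D
  20) (.D 20))))),
  by decide +kernel⟩

theorem c28_0 : Ok 28 16500000000000 0 0 1250000000000 20500000000000 := ⟨
  (.Y (.Y (.Y (.Y (.A 10 10) (.A 10 10)) (.Y (.A 10 10) (.A 10 12))) (.Y (.Y (.A 12 10) (.A 12
  12)) (.A 17 17))) (.Y (.Y (.A 20 17) (.A 20 20)) (.Y (.Y (.D 17) (.D 20)) (.Y (.D 20) (.D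
  20))))),
  by decide +kernel⟩

theorem c29_0 : Ok 29 17000000000000 0 0 1250000000000 20500000000000 := ⟨
  (.Y (.Y (.Y (.Y (.A 10 10) (.A 10 10)) (.Y (.A 10 10) (.A 10 12))) (.Y (.Y (.A 12 10) (.A 12
  12)) (.A 17 17))) (.Y (.Y (.A 20 17) (.A 20 20)) (.Y (.Y (.D 17) (.D 20)) (.Y (.D 20) (.D
  20))))),
  by decide +kernel⟩

theorem c30_0 : Ok 30 17500000000000 0 0 1250000000000 20500000000000 := ⟨
  (.Y (.Y (.Y (.Y (.A 10 10) (.A 10 10)) (.Y (.A 10 10) (.A 10 12))) (.Y (.Y (.A 12 10) (.A 12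
  12)) (.A 17 17))) (.Y (.Y (.A 20 17) (.A 20 20)) (.Y (.Y (.D 17) (.D 20)) (.Y (.D 20) (.D
  20))))),
  by decide +kernel⟩

theorem c31_0 : Ok 31 18000000000000 0 0 1250000000000 20500000000000 := ⟨
  (.Y (.Y (.Y (.Y (.A 10 10) (.A 10 10)) (.Y (.A 10 10) (.A 10 12))) (.Y (.Y (.A 12 10) (.A 12
  12)) (.A 17 17))) (.Y (.Y (.A 20 17) (.A 20 20)) (.Y (.Y (.D 17) (.D 20)) (.Y (.D 20) (.D
  20))))),
  by decide +kernel⟩

theorem c32_0 : Ok 32 18500000000000 0 0 1250000000000 20500000000000 := ⟨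
  (.Y (.Y (.Y (.Y (.A 10 10) (.A 10 10)) (.Y (.A 10 10) (.A 10 12))) (.Y (.A 17 17) (.A 17 17)))
  (.Y (.Y (.A 20 17) (.A 20 20)) (.Y (.Y (.D 17) (.D 20)) (.Y (.D 20) (.D 20))))),
  by decide +kernel⟩

theorem c33_0 : Ok 33 19000000000000 0 0 1250000000000 20500000000000 := ⟨
  (.Y (.Y (.Y (.Y (.A 10 10) (.A 10 10)) (.Y (.A 10 10) (.A 10 12))) (.Y (.A 17 17) (.A 17 17)))
  (.Y (.Y (.A 17 20) (.A 20 20)) (.Y (.Y (.D 17) (.D 20)) (.Y (.D 20) (.D 20))))),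
  by decide +kernel⟩

theorem c34_0 : Ok 34 19500000000000 0 0 1250000000000 20500000000000 := ⟨
  (.Y (.Y (.Y (.Y (.A 10 10) (.A 10 10)) (.Y (.A 10 10) (.A 10 12))) (.Y (.A 17 17) (.A 17 17)))
  (.Y (.Y (.A 17 17) (.A 20 17)) (.Y (.Y (.D 17) (.D 20)) (.Y (.D 20) (.D 20))))),
  by decide +kernel⟩

theorem c35_0 : Ok 35 20000000000000 0 0 1250000000000 20500000000000 := ⟨
  (.Y (.Y (.Y (.Y (.A 10 10) (.A 10 10)) (.Y (.A 10 10) (.A 10 12))) (.Y (.A 17 14) (.A 17 17)))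
  (.Y (.Y (.A 17 17) (.A 20 17)) (.Y (.Y (.D 17) (.D 17)) (.Y (.D 20) (.D 20))))),
  by decide +kernel⟩

theorem c36_0 : Ok 36 20500000000000 0 0 1250000000000 20500000000000 := ⟨
  (.Y (.Y (.Y (.A 14 17) (.A 17 14)) (.Y (.A 17 14) (.A 17 17))) (.Y (.Y (.A 17 17) (.A 20 17))
  (.Y (.Y (.D 17) (.D 17)) (.Y (.D 20) (.D 20))))),
  by decide +kernel⟩

end Vale.Agent.P139Z.NE
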