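import Vale.Agent.P139Z.NE.N0
import Vale.Agent.P139Z.NE.N1
import Vale.Agent.P139Z.NE.N2
import Vale.Agent.P139Z.NE.N3
import Vale.Agent.P139Z.NE.N4
import Vale.Agent.P139Z.NE.N5
import Vale.Agent.P139Z.NE.N6
import Vale.Agent.P139Z.NE.N7

/-! The certificates for the whole region. -/

namespace Vale.Agent.P139Z.NE

theorem ok0 : Ok 0 2500000000000 0 0 1250000000000 200000000000000 :=
  (Ok.Y (k := 200000000000000) (by decide) (by decide) (Ok.Y (k := 100000000000000) (by decide)
  (by decide) (Ok.Y (k := 50000000000000) (by decide) (by decide) (Ok.Y (k := 25000000000000)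
  (by decide) (by decide) (Ok.Y (k := 12500000000000) (by decide) (by decide) (Ok.Y (k :=
  6250000000000) (by decide) (by decide) (Ok.Y (k := 3125000000000) (by decide) (by decide)
  (Ok.Y (k := 1562500000000) (by decide) (by decide) (Ok.X (h := 1250000000000) (by decide) (by
  decide) (Ok.Y (k := 781250000000) (by decide) (by decide) (Ok.X (h := 625000000000) (by
  decide) (by decide) (Ok.Y (k := 390625000000) (by decide) (by decide) (Ok.X (h :=
  312500000000) (by decide) (by decide) c0_0 c0_1) (Ok.X (h := 312500000000) (by decide) (by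
  decide) (Ok.Y (k := 195312500000) (by decide) (by decide) c0_2 c0_3) c0_4)) c0_5) c0_6) c0_7)
  c0_8) c0_9) c0_10) c0_11) c0_12) c0_13) c0_14) c0_15)

theorem ok1 : Ok 1 3000000000000 0 0 1250000000000 200000000000000 :=
  (Ok.Y (k := 200000000000000) (by decide) (by decide) (Ok.Y (k := 100000000000000) (by decide)
  (by decide) (Ok.Y (k := 50000000000000) (by decide) (by decide) (Ok.Y (k := 25000000000000)
  (by decide) (by decide) (Ok.Y (k := 12500000000000) (by decide) (by decide) (Ok.Y (k :=
  6250000000000) (by decide) (by decide) (Ok.Y (k := 3125000000000) (by decide) (by decide)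
  (Ok.Y (k := 1562500000000) (by decide) (by decide) (Ok.X (h := 1250000000000) (by decide) (by
  decide) (Ok.Y (k := 781250000000) (by decide) (by decide) (Ok.X (h := 625000000000) (by
  decide) (by decide) (Ok.Y (k := 390625000000) (by decide) (by decide) (Ok.X (h :=
  312500000000) (by decide) (by decide) (Ok.Y (k := 195312500000) (by decide) (by decide) (Ok.X
  (h := 156250000000) (by decide) (by decide) (Ok.Y (k := 97656250000) (by decide) (by decide)
  (Ok.X (h := 78125000000) (by decide) (by decide) (Ok.Y (k := 48828125000) (by decide) (by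
  decide) (Ok.X (h := 39062500000) (by decide) (by decide) (Ok.Y (k := 24414062500) (by decide)
  (by decide) c1_0 c1_1) c1_2) (Ok.X (h := 39062500000) (by decide) (by decide) c1_3 c1_4))
  (Ok.Y (k := 48828125000) (by decide) (by decide) c1_5 c1_6)) (Ok.X (h := 78125000000) (by
  decide) (by decide) (Ok.Y (k := 48828125000) (by decide) (by decide) (Ok.X (h := 39062500000)
  (by decide) (by decide) c1_7 c1_8) c1_9) (Ok.Y (k := 48828125000) (by decide) (by decide)
  c1_10 c1_11))) (Ok.Y (k := 97656250000) (by decide) (by decide) (Ok.X (h := 78125000000) (by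
  decide) (by decide) c1_12 c1_13) (Ok.X (h := 78125000000) (by decide) (by decide) c1_14
  c1_15))) (Ok.X (h := 156250000000) (by decide) (by decide) (Ok.Y (k := 97656250000) (by
  decide) (by decide) (Ok.X (h := 78125000000) (by decide) (by decide) c1_16 c1_17) c1_18) (Ok.Y
  (k := 97656250000) (by decide) (by decide) c1_19 c1_20))) (Ok.Y (k := 195312500000) (by
  decide) (by decide) (Ok.X (h := 156250000000) (by decide) (by decide) (Ok.Y (k := 97656250000)
  (by decide) (by decide) c1_21 c1_22) c1_23) (Ok.X (h := 156250000000) (by decide) (by decide)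
  c1_24 c1_25))) (Ok.X (h := 312500000000) (by decide) (by decide) (Ok.Y (k := 195312500000) (by
  decide) (by decide) c1_26 c1_27) c1_28)) (Ok.Y (k := 390625000000) (by decide) (by decide)
  c1_29 c1_30)) c1_31) c1_32) c1_33) c1_34) c1_35) c1_36) c1_37) c1_38) c1_39) c1_40)

theorem ok2 : Ok 2 3500000000000 0 0 1250000000000 200000000000000 :=
  (Ok.Y (k := 200000000000000) (by decide) (by decide) (Ok.Y (k := 100000000000000) (by decide)
  (by decide) (Ok.Y (k := 50000000000000) (by decide) (by decide) (Ok.Y (k := 25000000000000)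
  (by decide) (by decide) (Ok.Y (k := 12500000000000) (by decide) (by decide) (Ok.Y (k :=
  6250000000000) (by decide) (by decide) (Ok.Y (k := 3125000000000) (by decide) (by decide)
  (Ok.Y (k := 1562500000000) (by decide) (by decide) (Ok.X (h := 1250000000000) (by decide) (by
  decide) (Ok.Y (k := 781250000000) (by decide) (by decide) (Ok.X (h := 625000000000) (by
  decide) (by decide) (Ok.Y (k := 390625000000) (by decide) (by decide) c2_0 (Ok.X (h :=
  312500000000) (by decide) (by decide) c2_1 c2_2)) c2_3) (Ok.X (h := 625000000000) (by decide)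
  (by decide) (Ok.Y (k := 390625000000) (by decide) (by decide) (Ok.X (h := 312500000000) (by
  decide) (by decide) (Ok.Y (k := 195312500000) (by decide) (by decide) c2_4 c2_5) c2_6) c2_7)
  c2_8)) c2_9) c2_10) c2_11) c2_12) c2_13) c2_14) c2_15) c2_16) c2_17)

theorem ok3 : Ok 3 4000000000000 0 0 1250000000000 200000000000000 :=
  (Ok.Y (k := 200000000000000) (by decide) (by decide) (Ok.Y (k := 100000000000000) (by decide)
  (by decide) (Ok.Y (k := 50000000000000) (by decide) (by decide) (Ok.Y (k := 25000000000000)
  (by decide) (by decide) (Ok.Y (k := 12500000000000) (by decide) (by decide) (Ok.Y (k :=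
  6250000000000) (by decide) (by decide) (Ok.Y (k := 3125000000000) (by decide) (by decide)
  (Ok.Y (k := 1562500000000) (by decide) (by decide) (Ok.X (h := 1250000000000) (by decide) (by
  decide) (Ok.Y (k := 781250000000) (by decide) (by decide) c3_0 c3_1) c3_2) c3_3) c3_4) c3_5)
  c3_6) c3_7) c3_8) c3_9) c3_10)

theorem ok4 : Ok 4 4500000000000 0 0 1250000000000 200000000000000 :=
  (Ok.Y (k := 200000000000000) (by decide) (by decide) (Ok.Y (k := 100000000000000) (by decide)
  (by decide) (Ok.Y (k := 50000000000000) (by decide) (by decide) (Ok.Y (k := 25000000000000)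
  (by decide) (by decide) (Ok.Y (k := 12500000000000) (by decide) (by decide) (Ok.Y (k :=
  6250000000000) (by decide) (by decide) (Ok.Y (k := 3125000000000) (by decide) (by decide)
  (Ok.Y (k := 1562500000000) (by decide) (by decide) c4_0 c4_1) c4_2) c4_3) c4_4) c4_5) c4_6)
  c4_7) c4_8)

theorem ok5 : Ok 5 5000000000000 0 0 1250000000000 200000000000000 :=
  (Ok.Y (k := 200000000000000) (by decide) (by decide) (Ok.Y (k := 100000000000000) (by decide)
  (by decide) (Ok.Y (k := 50000000000000) (by decide) (by decide) (Ok.Y (k := 25000000000000)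
  (by decide) (by decide) (Ok.Y (k := 12500000000000) (by decide) (by decide) (Ok.Y (k :=
  6250000000000) (by decide) (by decide) (Ok.Y (k := 3125000000000) (by decide) (by decide) c5_0
  c5_1) c5_2) c5_3) c5_4) c5_5) c5_6) c5_7)

theorem ok6 : Ok 6 5500000000000 0 0 1250000000000 200000000000000 :=
  (Ok.Y (k := 200000000000000) (by decide) (by decide) (Ok.Y (k := 100000000000000) (by decide)
  (by decide) (Ok.Y (k := 50000000000000) (by decide) (by decide) (Ok.Y (k := 25000000000000)
  (by decide) (by decide) (Ok.Y (k := 12500000000000) (by decide) (by decide) (Ok.Y (k :=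
  6250000000000) (by decide) (by decide) c6_0 c6_1) c6_2) c6_3) c6_4) c6_5) c6_6)

theorem ok7 : Ok 7 6000000000000 0 0 1250000000000 200000000000000 :=
  (Ok.Y (k := 200000000000000) (by decide) (by decide) (Ok.Y (k := 100000000000000) (by decide)
  (by decide) (Ok.Y (k := 50000000000000) (by decide) (by decide) (Ok.Y (k := 25000000000000)
  (by decide) (by decide) (Ok.Y (k := 12500000000000) (by decide) (by decide) c7_0 c7_1) c7_2)
  c7_3) c7_4) c7_5)

theorem ok8 : Ok 8 6500000000000 0 0 1250000000000 200000000000000 :=
  (Ok.Y (k := 200000000000000) (by decide) (by decide) (Ok.Y (k := 100000000000000) (by decide)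
  (by decide) c8_0 c8_1) c8_2)

theorem ok9 : Ok 9 7000000000000 0 0 1250000000000 200000000000000 :=
  c9_0

theorem ok10 : Ok 10 7500000000000 0 0 1250000000000 200000000000000 :=
  c10_0

theorem ok11 : Ok 11 8000000000000 0 0 1250000000000 200000000000000 :=
  c11_0

theorem ok12 : Ok 12 8500000000000 0 0 1250000000000 200000000000000 :=
  c12_0

theorem ok13 : Ok 13 9000000000000 0 0 1250000000000 200000000000000 :=
  c13_0

theorem ok14 : Ok 14 9500000000000 0 0 1250000000000 200000000000000 :=
  c14_0

theorem ok15 : Ok 15 10000000000000 0 0 1250000000000 20500000000000 :=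
  c15_0

theorem ok16 : Ok 16 10500000000000 0 0 1250000000000 20500000000000 :=
  c16_0

theorem ok17 : Ok 17 11000000000000 0 0 1250000000000 20500000000000 :=
  c17_0

theorem ok18 : Ok 18 11500000000000 0 0 1250000000000 20500000000000 :=
  c18_0

theorem ok19 : Ok 19 12000000000000 0 0 1250000000000 20500000000000 :=
  c19_0

theorem ok20 : Ok 20 12500000000000 0 0 1250000000000 20500000000000 :=
  c20_0

theorem ok21 : Ok 21 13000000000000 0 0 1250000000000 20500000000000 :=
  c21_0

theorem ok22 : Ok 22 13500000000000 0 0 1250000000000 20500000000000 :=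
  c22_0

theorem ok23 : Ok 23 14000000000000 0 0 1250000000000 20500000000000 :=
  c23_0

theorem ok24 : Ok 24 14500000000000 0 0 1250000000000 20500000000000 :=
  c24_0

theorem ok25 : Ok 25 15000000000000 0 0 1250000000000 20500000000000 :=
  c25_0

theorem ok26 : Ok 26 15500000000000 0 0 1250000000000 20500000000000 :=
  c26_0

theorem ok27 : Ok 27 16000000000000 0 0 1250000000000 20500000000000 :=
  c27_0

theorem ok28 : Ok 28 16500000000000 0 0 1250000000000 20500000000000 :=
  c28_0

theorem ok29 : Ok 29 17000000000000 0 0 1250000000000 20500000000000 :=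
  c29_0

theorem ok30 : Ok 30 17500000000000 0 0 1250000000000 20500000000000 :=
  c30_0

theorem ok31 : Ok 31 18000000000000 0 0 1250000000000 20500000000000 :=
  c31_0

theorem ok32 : Ok 32 18500000000000 0 0 1250000000000 20500000000000 :=
  c32_0

theorem ok33 : Ok 33 19000000000000 0 0 1250000000000 20500000000000 :=
  c33_0

theorem ok34 : Ok 34 19500000000000 0 0 1250000000000 20500000000000 :=
  c34_0

theorem ok35 : Ok 35 20000000000000 0 0 1250000000000 20500000000000 :=
  c35_0

theorem ok36 : Ok 36 20500000000000 0 0 1250000000000 20500000000000 :=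
  c36_0

end Vale.Agent.P139Z.NE
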