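import Vale.Agent.P139Z.NE.Down

/-! The scalar chain: a bound on the real part from a bound on the ratio. -/

open Complex
open scoped ComplexConjugate

namespace Vale.Agent.P139Z.NE

open NumP Loc Alg

theorem fwd {a p y p' y' : ℂ} {b Z M : ℝ} (h1 : y' = p + a * y)
    (h2 : p' + I * Z * y' = a * p + (b : ℂ) ^ 2 * y) (hZ : 0 ≤ Z) (hM : 0 ≤ M) {al b2 z s t : ℤ}
    (ha : ‖a‖ ≤ sr al) (hb : b ^ 2 ≤ sr b2) (hz : Z ≤ sr z) (hp : ‖p‖ ≤ sr s * M)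
    (hy : ‖y‖ ≤ sr t * M) :
    ‖y'‖ ≤ sr (s + up al t) * M ∧
      ‖p'‖ ≤ sr (up al s + up b2 t + up z (s + up al t)) * M := by
  have a0 : 0 ≤ sr al := (norm_nonneg _).trans ha
  have b0 : 0 ≤ sr b2 := (sq_nonneg _).trans hb
  have z0 : 0 ≤ sr z := hZ.trans hz
  have hy' : ‖y'‖ ≤ sr (s + up al t) * M := by
    rw [h1, sr_add]
    have e1 : ‖a * y‖ ≤ sr al * (sr t * M) := by
      rw [norm_mul]; exact mul_le_mul ha hy (norm_nonneg _) a0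
    have e2 := norm_add_le p (a * y)
    have e3 := mul_le_mul_of_nonneg_right (le_up al t) hM
    linarith
  refine ⟨hy', ?_⟩
  have e1 : ‖a * p‖ ≤ sr al * (sr s * M) := by
    rw [norm_mul]; exact mul_le_mul ha hp (norm_nonneg _) a0
  have e2 : ‖(b : ℂ) ^ 2 * y‖ ≤ sr b2 * (sr t * M) := by
    rw [norm_mul, norm_pow, Complex.norm_real, Real.norm_eq_abs, sq_abs]
    exact mul_le_mul hb hy (norm_nonneg _) b0
  have e3 : ‖I * Z * y'‖ ≤ sr z * (sr (s + up al t) * M) := by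
    rw [norm_mul, norm_mul, Complex.norm_I, one_mul, Complex.norm_real, Real.norm_eq_abs,
      abs_of_nonneg hZ]
    exact mul_le_mul hz hy' (norm_nonneg _) z0
  have e4 : ‖p'‖ ≤ ‖a * p‖ + ‖(b : ℂ) ^ 2 * y‖ + ‖I * Z * y'‖ := by
    have : p' = a * p + (b : ℂ) ^ 2 * y - I * Z * y' := by rw [← h2]; ring
    conv_lhs => rw [this]
    exact (norm_sub_le _ _).trans (by gcongr; exact norm_add_le _ _)
  have e5 := mul_le_mul_of_nonneg_right (le_up al s) hM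
  have e6 := mul_le_mul_of_nonneg_right (le_up b2 t) hM
  have e7 := mul_le_mul_of_nonneg_right (le_up z (s + up al t)) hM
  rw [sr_add, sr_add]
  linarith

/-- The bound for the quadratic form. -/
def nn (b2 s t : ℤ) : ℤ := up s s + up b2 (up t t)

/-- One backward step for the real part. -/
def bw (x k N q : ℤ) : ℤ := (2 * x + k * N) * S / (2 * q) + 1

theorem bwd {a p y p' y' : ℂ} {b Z M : ℝ} (h1 : y' = p + a * y)
    (h2 : p' + I * Z * y' = a * p + (b : ℂ) ^ 2 * y) {b2 s t x q : ℤ} {k : ℕ}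
    (hb : b ^ 2 ≤ sr b2) (hp : ‖p‖ ≤ sr s * M) (hy : ‖y‖ ≤ sr t * M) (hq0 : 0 < q)
    (hq : sr q ≤ ‖a‖ ^ 2 + b ^ 2) (hk : -((k : ℝ) / 2) ≤ a.re) (hx : 0 ≤ sr x)
    (hX : (conj y' * p').re ≤ sr x * M ^ 2) :
    0 ≤ sr (bw x k (nn b2 s t) q) ∧ (conj y * p).re ≤ sr (bw x k (nn b2 s t) q) * M ^ 2 := by
  have b0 : 0 ≤ sr b2 := (sq_nonneg _).trans hb
  have hq' : 0 < sr q := by rw [← sr_zero]; exact sr_lt hq0
  have e1 : ‖p‖ ^ 2 ≤ (sr s * M) ^ 2 := pow_le_pow_left₀ (norm_nonneg _) hp 2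
  have e2 : ‖y‖ ^ 2 ≤ (sr t * M) ^ 2 := pow_le_pow_left₀ (norm_nonneg _) hy 2
  have e3 : b ^ 2 * ‖y‖ ^ 2 ≤ sr b2 * (sr t * M) ^ 2 := mul_le_mul hb e2 (by positivity) b0
  have u1 := le_up s s
  have u2 := mul_le_up le_rfl (le_up t t) b0 (mul_self_nonneg _)
  have N0 : 0 ≤ sr (nn b2 s t) := by
    rw [nn, sr_add]
    nlinarith [mul_self_nonneg (sr s), mul_nonneg b0 (mul_self_nonneg (sr t))]
  have e4 : ‖p‖ ^ 2 + b ^ 2 * ‖y‖ ^ 2 ≤ sr (nn b2 s t) * M ^ 2 := by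
    rw [nn, sr_add]
    have := mul_le_mul_of_nonneg_right (add_le_add u1 u2) (sq_nonneg M)
    linarith
  generalize nn b2 s t = N at N0 e4 ⊢
  have k0 : (0 : ℝ) ≤ k := Nat.cast_nonneg k
  have e0 : sr (2 * x + k * N) = 2 * sr x + k * sr N := by simp only [sr]; push_cast; ring
  have e5 : sr (2 * q) = 2 * sr q := by simp only [sr]; push_cast; ring
  have d := div_le_sr (s := 2 * sr x + k * sr N) (t := 2 * sr q) (a := 2 * x + k * N) (q := 2 * q)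
    e0.ge e5.le (by positivity) (by omega)
  rw [← bw] at d
  have d0 : 0 ≤ sr (bw x k N q) := le_trans (by positivity) d
  refine ⟨d0, ?_⟩
  rcases le_or_gt (conj y * p).re 0 with h0 | h0
  · exact h0.trans (by positivity)
  rw [X_alg h1 h2] at hX
  rw [div_le_iff₀ (by positivity)] at d
  have e6 : -((k : ℝ) / 2) * (‖p‖ ^ 2 + b ^ 2 * ‖y‖ ^ 2) ≤ a.re * (‖p‖ ^ 2 + b ^ 2 * ‖y‖ ^ 2) :=
    mul_le_mul_of_nonneg_right hk (by positivity)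
  have e7 := mul_le_mul_of_nonneg_left e4 k0
  have e8 := mul_le_mul_of_nonneg_right hq h0.le
  have e9 := mul_le_mul_of_nonneg_right d (sq_nonneg M)
  have e10 : sr q * (conj y * p).re ≤ sr q * (sr (bw x k N q) * M ^ 2) := by linarith
  exact le_of_mul_le_mul_left e10 hq'

/-- The last part of the chain. -/
def xb2 (b2 q s₀ s₁ t₁ s₂ t₂ : ℤ) : ℤ :=
  bw (bw (bw 0 (1 : ℕ) (nn b2 s₂ t₂) q) (3 : ℕ) (nn b2 s₁ t₁) q) (5 : ℕ) (nn b2 s₀ S) q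

/-- The middle part of the chain. -/
def xb1 (al b2 q s₀ s₁ t₁ : ℤ) : ℤ :=
  xb2 b2 q s₀ s₁ t₁ (up al s₁ + up b2 t₁ + up (Zc + Zr) (s₁ + up al t₁)) (s₁ + up al t₁)

/-- The chain with given constants. -/
def xb0 (al b2 q s : ℤ) : ℤ :=
  xb1 al b2 q s (up al s + up b2 S + up (Zc + Zr) (s + up al S)) (s + up al S)

/-- The chain. -/
def xb (s w₀ w₁ b : ℤ) : ℤ := xb0 (ub 2500000000000 w₁) (up b b) ((w₀ * w₀ + b * b) / S) s

theorem xb_sound {A : ℂ} {B : ℕ} {Z : ℝ} {P Y : ℕ → ℂ} (hL : Lev A B Z P Y) (hB : 6 ≤ B)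
    (hZ : InZ Z) {b : ℤ} (hb : bb B = sr b) (hA : -(5 / 2) ≤ A.re - bb B)
    (hA' : A.re - bb B ≤ 0) {s w₀ w₁ : ℤ} (h0 : 0 ≤ w₀) (h1 : sr w₀ ≤ |A.im|) (h2 : |A.im| ≤ sr w₁)
    (hq : 0 < (w₀ * w₀ + b * b) / S) (hs : ‖pp B P Y 0‖ ≤ sr s * ‖Y 0‖) :
    (conj (Y 0) * pp B P Y 0).re ≤ sr (xb s w₀ w₁ b) * ‖Y 0‖ ^ 2 := by
  have hZ0 : 0 < Z := by linarith [hZ.1]
  have hZ1 : Z ≤ sr (Zc + Zr) := by rw [sr_add]; linarith [(abs_le.1 (inZ_ball hZ)).2]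
  have hb2 : bb B ^ 2 ≤ sr (up b b) := by rw [hb, pow_two]; exact le_up b b
  have e25 : sr 2500000000000 = 5 / 2 := by simp only [sr, S]; norm_num
  have al : ∀ n : ℕ, n ≤ 2 → ‖aa A B n‖ ≤ sr (ub 2500000000000 w₁) := by
    intro n hn
    have hn' : (n : ℝ) ≤ 2 := by exact_mod_cast hn
    have hn0 : (0 : ℝ) ≤ n := Nat.cast_nonneg n
    refine le_trans (norm_le_of_sq (norm_nonneg _) ?_) (norm_le_ub _ _)
    rw [Complex.sq_norm, Complex.normSq_apply, aa_re, aa_im, ← sq_abs A.im]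
    simp only [sc, e25]
    have := pow_le_pow_left₀ (abs_nonneg _) h2 2
    nlinarith
  have ql : ∀ n : ℕ, sr ((w₀ * w₀ + b * b) / S) ≤ ‖aa A B n‖ ^ 2 + bb B ^ 2 := by
    intro n
    refine (sr_div_le _).trans ?_
    rw [sr_add, add_div, ← sr_mul, ← sr_mul, hb, Complex.sq_norm, Complex.normSq_apply, aa_im]
    have := mul_le_mul h1 h1 (sr_nonneg h0) (abs_nonneg _)
    rw [abs_mul_abs_self] at this
    nlinarith [mul_self_nonneg (aa A B n).re]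
  have y0 : ‖Y 0‖ ≤ sr S * ‖Y 0‖ := by rw [sr_S, one_mul]
  obtain ⟨y1, p1⟩ := fwd (rec_y hL 0) (rec_p hL 0) hZ0.le (norm_nonneg _) (al 0 (by omega)) hb2 hZ1
    hs y0
  obtain ⟨y2, p2⟩ := fwd (rec_y hL 1) (rec_p hL 1) hZ0.le (norm_nonneg _) (al 1 (by omega)) hb2 hZ1
    p1 y1
  have x3 : (conj (Y (2 + 1)) * pp B P Y (2 + 1)).re ≤ sr 0 * ‖Y 0‖ ^ 2 := by
    rw [sr_zero, zero_mul, X_eq]
    exact hL.X_nonpos hB hZ0 (2 + 1) (by rw [← bb]; push_cast; linarith)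
  obtain ⟨z2, x2⟩ := bwd (k := 1) (rec_y hL 2) (rec_p hL 2) hb2 p2 y2 hq (ql 2)
    (by rw [aa_re]; push_cast; linarith) sr_zero.ge x3
  obtain ⟨z1, x1⟩ := bwd (k := 3) (rec_y hL 1) (rec_p hL 1) hb2 p1 y1 hq (ql 1)
    (by rw [aa_re]; push_cast; linarith) z2 x2
  obtain ⟨-, x0⟩ := bwd (k := 5) (rec_y hL 0) (rec_p hL 0) hb2 hs y0 hq (ql 0)
    (by rw [aa_re]; push_cast; linarith) z1 x1
  rw [xb, xb0, xb1, xb2]
  exact x0

end Vale.Agent.P139Z.NE
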