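import Vale.Agent.P139Z.NE.Mob

/-! Starting balls and the backward recursion for the ratio. -/

open Complex
open scoped ComplexConjugate

namespace Vale.Agent.P139Z.NE

open NumP Loc Alg

/-- The ratio at the level `n` lies in the ball `k`. -/
def KE (B : ℕ) (P Y : ℕ → ℂ) (n : ℕ) (k : Bl) : Prop :=
  ∃ κ : ℂ, k.Mem κ ∧ pp B P Y n = κ * Y n

theorem mem_neg {k : Bl} {z : ℂ} (h : k.Mem z) : Bl.Mem ⟨-k.x, -k.y, k.r⟩ (-z) := by
  unfold Bl.Mem at *
  have : -z - sc (-k.x) (-k.y) = -(z - sc k.x k.y) := by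
    apply Complex.ext <;> simp [sc, sr, neg_div] <;> ring
  rw [this, norm_neg]
  exact h

theorem mem_conj {k : Bl} {z : ℂ} (h : k.Mem z) : Bl.Mem ⟨k.x, -k.y, k.r⟩ (conj z) := by
  unfold Bl.Mem at *
  have : conj z - sc k.x (-k.y) = conj (z - sc k.x k.y) := by
    apply Complex.ext <;> simp [sc, sr, neg_div]
  rw [this, Complex.norm_conj]
  exact h

theorem mem_Z {Z : ℝ} (hZ : InZ Z) : Bl.Mem ⟨0, Zc, Zr⟩ (I * Z) := by
  refine le_trans (le_of_eq ?_) (inZ_ball hZ)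
  have : I * Z - sc 0 Zc = I * ((Z - sr Zc : ℝ) : ℂ) := by
    apply Complex.ext <;> simp [sc, sr_zero]
  rw [this, norm_mul, norm_I, one_mul, norm_real, Real.norm_eq_abs]

theorem bind_some {α β : Type} {o : Option α} {f : α → Option β} {b : β} (h : o.bind f = some b) :
    ∃ a, o = some a ∧ f a = some b := Option.bind_eq_some_iff.1 h

/-- One backward step for the ratio. -/
def kstep (k a : Bl) (b : ℤ) : Option Bl :=
  (mob a ⟨-(k.x + 0), -(k.y + Zc), k.r + Zr⟩ b).bind fun m => some ⟨-m.x, -m.y, m.r⟩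

theorem kstep_sound {A : ℂ} {B : ℕ} {Z : ℝ} {P Y : ℕ → ℂ} (hL : Lev A B Z P Y) (hZ : InZ Z)
    {b : ℤ} (hb : bb B = sr b) {n : ℕ} {k a k' : Bl} (ha : a.Mem (aa A B n))
    (hc : kstep k a b = some k') (h : KE B P Y (n + 1) k) : KE B P Y n k' := by
  rw [kstep] at hc
  obtain ⟨m, hm, e⟩ := bind_some hc
  clear hc
  obtain rfl := Option.some.inj e
  obtain ⟨κ, hκ, eκ⟩ := h
  have hu := mem_neg (hκ.add (mem_Z hZ))
  simp only [Bl.add] at hu
  obtain ⟨hne, hM⟩ := mob_sound hm ha hu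
  clear hm
  refine ⟨_, mem_neg hM, ?_⟩
  have y1 := rec_y hL n
  have p1 := rec_p hL n
  rw [eκ, y1, hb] at p1
  rw [← neg_div, div_mul_eq_mul_div, eq_div_iff hne]
  linear_combination -p1

/-- Backward steps for the ratio from the level `lo + n` to the level `lo`. -/
def kdown (a : Bl) (b : ℤ) (lo : ℕ) : ℕ → Bl → Option Bl
  | 0, k => some k
  | n + 1, k => (kstep k (lev a (lo + n)) b).bind fun k' => kdown a b lo n k'

theorem kdown_sound {A : ℂ} {B : ℕ} {Z : ℝ} {P Y : ℕ → ℂ} (hL : Lev A B Z P Y) (hZ : InZ Z)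
    {b : ℤ} (hb : bb B = sr b) {a : Bl} (ha : a.Mem (aa A B 0)) (lo n : ℕ) {k k' : Bl}
    (hc : kdown a b lo n k = some k') (h : KE B P Y (lo + n) k) : KE B P Y lo k' := by
  induction n generalizing k with
  | zero =>
    obtain rfl := Option.some.inj hc
    exact h
  | succ n ih =>
    rw [kdown] at hc
    obtain ⟨s, hs, e⟩ := Option.bind_eq_some_iff.1 hc
    exact ih e (kstep_sound hL hZ hb (lev_mem ha _) hs h)

/-- A number whose square is at least `t`, if the check succeeds. -/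
def rt (x y t : ℤ) : Option Bl :=
  if t ≤ (isq t + 2) * (isq t + 2) then some ⟨x, y, isq t + 2⟩ else none

theorem rt_sound {x y t : ℤ} {k : Bl} (h : rt x y t = some k) {p q : ℂ}
    (hp : ‖p - sc x y * q‖ ^ 2 ≤ sr t / (S : ℝ) * ‖q‖ ^ 2) : ∃ κ : ℂ, k.Mem κ ∧ p = κ * q := by
  unfold rt at h
  split_ifs at h with hc
  obtain rfl := Option.some.inj h
  have h0 : 0 ≤ sr (isq t + 2) := sr_nonneg (by unfold isq; omega)
  refine exists_ratio (abs_le_of_sq_le_sq' (hp.trans ?_) (by positivity)).2 h0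
  rw [mul_pow, pow_two (sr _), sr_mul]
  exact mul_le_mul_of_nonneg_right (div_le_div_of_nonneg_right (sr_le hc) S_pos.le) (by positivity)

theorem le_sr_quot {u q : ℤ} (hq : 0 < q) : sr u / (S : ℝ) ≤ sr q * sr (u / q + 1) := by
  rw [sr_mul]
  refine div_le_div_of_nonneg_right (sr_le ?_) S_pos.le
  have := Int.lt_ediv_add_one_mul_self u hq
  linarith

theorem re_bd {a : Bl} {z : ℂ} (h : a.Mem z) : sr (a.x - a.r) ≤ z.re ∧ z.re ≤ sr (a.x + a.r) := by
  have h1 := abs_le.1 ((Complex.abs_re_le_norm (z - sc a.x a.y)).trans h)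
  simp only [sub_re, sc] at h1
  rw [sr_sub, sr_add]
  constructor <;> linarith [h1.1, h1.2]

theorem im_bd {a : Bl} {z : ℂ} (h : a.Mem z) : sr (a.y - a.r) ≤ z.im ∧ z.im ≤ sr (a.y + a.r) := by
  have h1 := abs_le.1 ((Complex.abs_im_le_norm (z - sc a.x a.y)).trans h)
  simp only [sub_im, sc] at h1
  rw [sr_sub, sr_add]
  constructor <;> linarith [h1.1, h1.2]

theorem sq_le_of_mem {a : Bl} {z : ℂ} (h : a.Mem z) :
    ‖z‖ ^ 2 ≤ sr ((ub a.x a.y + a.r) * (ub a.x a.y + a.r)) / (S : ℝ) := by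
  rw [← sr_mul, ← pow_two]
  exact pow_le_pow_left₀ (norm_nonneg _) h.norm_le 2

/-- The starting ball from the sign of the real part. -/
def xs1 (M b : ℤ) : Option Bl := rt (-M) 0 (M * M - b * b)

/-- The starting ball from the sign of the real part. -/
def xstart (a : Bl) (b : ℤ) : Option Bl :=
  if 0 < a.x - a.r then
    xs1 (((ub a.x a.y + a.r) * (ub a.x a.y + a.r) + b * b) / (2 * (a.x - a.r)) + 1) b
  else none

theorem xstart_sound {A : ℂ} {B : ℕ} {Z : ℝ} {P Y : ℕ → ℂ} (hL : Lev A B Z P Y) (hB : 6 ≤ B)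
    (hZ : InZ Z) {b : ℤ} (hb : bb B = sr b) {n : ℕ} {a k : Bl} (ha : a.Mem (aa A B n))
    (hc : xstart a b = some k) : KE B P Y n k := by
  unfold xstart at hc
  split_ifs at hc with h0
  have q1 := le_sr_quot (u := (ub a.x a.y + a.r) * (ub a.x a.y + a.r) + b * b)
    (show 0 < 2 * (a.x - a.r) by omega)
  generalize ((ub a.x a.y + a.r) * (ub a.x a.y + a.r) + b * b) / (2 * (a.x - a.r)) + 1 = M
    at hc q1
  refine rt_sound hc ?_
  have hZ0 : 0 < Z := by linarith [hZ.1]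
  have n0 : 0 < sr (a.x - a.r) := by rw [← sr_zero]; exact sr_lt h0
  have n1 := (re_bd ha).1
  have n2 := sq_le_of_mem ha
  have n3 : (aa A B n).re = A.re + n - bb B := aa_re A B n
  have x1 := hL.X_nonpos hB hZ0 (n + 1) (by rw [← bb]; push_cast; linarith)
  have x0 := hL.X_nonpos hB hZ0 n (by rw [← bb]; linarith)
  rw [← X_eq] at x1 x0
  rw [X_alg (rec_y hL n) (rec_p hL n), hb] at x1
  rw [sr_add, add_div, ← sr_mul b b, two_mul, sr_add] at q1
  have hM : 0 ≤ sr M := by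
    by_contra hneg
    nlinarith [sq_nonneg ‖aa A B n‖, mul_self_nonneg (sr b)]
  have e : ‖pp B P Y n - sc (-M) 0 * Y n‖ ^ 2 = ‖pp B P Y n‖ ^ 2
      + 2 * sr M * (conj (Y n) * pp B P Y n).re + sr M ^ 2 * ‖Y n‖ ^ 2 := by
    have : sr (-M) = -sr M := by simp [sr, neg_div]
    simp only [Complex.sq_norm, Complex.normSq_apply, sub_re, sub_im, mul_re, mul_im, sc, conj_re,
      conj_im, this, sr_zero]
    ring
  rw [e, sr_sub, sub_div, ← sr_mul, ← sr_mul]
  generalize (conj (Y n) * pp B P Y n).re = X at x0 x1 ⊢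
  generalize (aa A B n).re = ν at n1 x1
  have h1 : ‖aa A B n‖ ^ 2 + sr b ^ 2 ≤ 2 * ν * sr M := by nlinarith
  have h2 := mul_le_mul_of_nonpos_right h1 x0
  have h3 : ν * (‖pp B P Y n‖ ^ 2 + 2 * sr M * X + sr b ^ 2 * ‖Y n‖ ^ 2) ≤ ν * 0 := by linarith
  have h4 := le_of_mul_le_mul_left h3 (by linarith)
  linarith

/-- The starting ball from the sign of the flux. -/
def fs1 (M b : ℤ) : Option Bl := rt 0 M (M * M + b * b + M * (Zc + Zr))

/-- The starting ball from the sign of the flux. -/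
def fstart (a : Bl) (b : ℤ) : Option Bl :=
  if 0 < -(a.y + a.r) ∧ b ≤ lb a.x a.y - a.r then
    fs1 (((ub a.x a.y + a.r) * (ub a.x a.y + a.r) - b * b) / (2 * -(a.y + a.r)) + 1) b
  else none

theorem fstart_sound {A : ℂ} {B : ℕ} {Z : ℝ} {P Y : ℕ → ℂ} (hL : Lev A B Z P Y) (hB : 6 ≤ B)
    (hZ : InZ Z) {b : ℤ} (hb : bb B = sr b) {n : ℕ} (hn : (B : ℝ) / 2 < A.re + n) {a k : Bl}
    (ha : a.Mem (aa A B n)) (hc : fstart a b = some k) : KE B P Y n k := by
  unfold fstart at hc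
  split_ifs at hc with h0
  have q1 := le_sr_quot (u := (ub a.x a.y + a.r) * (ub a.x a.y + a.r) - b * b)
    (show 0 < 2 * -(a.y + a.r) by omega)
  generalize ((ub a.x a.y + a.r) * (ub a.x a.y + a.r) - b * b) / (2 * -(a.y + a.r)) + 1 = M
    at hc q1
  refine rt_sound hc ?_
  have hZ0 : 0 < Z := by linarith [hZ.1]
  have hZ1 : Z ≤ sr (Zc + Zr) := by rw [sr_add]; linarith [(abs_le.1 (inZ_ball hZ)).2]
  have e0 : sr (-(a.y + a.r)) = -sr (a.y + a.r) := by simp only [sr]; push_cast; ring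
  have n0 : 0 < -sr (a.y + a.r) := by rw [← e0, ← sr_zero]; exact sr_lt h0.1
  have n1 := (im_bd ha).2
  have n2 := sq_le_of_mem ha
  have b0 : 0 ≤ sr b := by
    have : (6 : ℝ) ≤ B := by exact_mod_cast hB
    rw [← hb, bb]; linarith
  have n4 : sr b ^ 2 ≤ ‖aa A B n‖ ^ 2 := pow_le_pow_left₀ b0 ((sr_le h0.2).trans ha.le_norm) 2
  have f1 := hL.flux_nonneg (n + 1) (by push_cast; linarith)
  have f0 := hL.flux_nonneg n hn
  unfold flux at f1 f0
  rw [← J_eq B] at f1 f0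
  have j := J_alg (rec_y hL n) (rec_p hL n)
  rw [hb] at j
  rw [sr_sub, sub_div, ← sr_mul b b, two_mul, sr_add, e0] at q1
  have hM : 0 ≤ sr M := by
    by_contra hneg
    nlinarith
  have e : ‖pp B P Y n - sc 0 M * Y n‖ ^ 2 = ‖pp B P Y n‖ ^ 2
      - 2 * sr M * (conj (Y n) * pp B P Y n).im + sr M ^ 2 * ‖Y n‖ ^ 2 := by
    simp only [Complex.sq_norm, Complex.normSq_apply, sub_re, sub_im, mul_re, mul_im, sc, conj_re,
      conj_im, sr_zero]
    ring
  rw [e, sr_add, sr_add, add_div, add_div, ← sr_mul, ← sr_mul, ← sr_mul]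
  generalize (conj (Y n) * pp B P Y n).im = J at f0 j ⊢
  generalize (aa A B n).im = v at n1 j
  have h1 : ‖aa A B n‖ ^ 2 - sr b ^ 2 ≤ 2 * -v * sr M := by nlinarith
  have h2 := mul_le_mul_of_nonneg_right h1 f0
  have h5 : 0 ≤ Z / 2 * ‖Y (n + 1)‖ ^ 2 := by positivity
  have h6 : 0 ≤ (‖aa A B n‖ ^ 2 - sr b ^ 2) * (Z / 2 * ‖Y n‖ ^ 2) :=
    mul_nonneg (by linarith) (by positivity)
  have h3 : -v * (‖pp B P Y n‖ ^ 2 - 2 * sr M * J)
      ≤ -v * ((sr b ^ 2 + sr M * Z) * ‖Y n‖ ^ 2) := by linarith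
  have h4 := le_of_mul_le_mul_left h3 (by linarith)
  have h7 := mul_le_mul_of_nonneg_right (mul_le_mul_of_nonneg_left hZ1 hM) (sq_nonneg ‖Y n‖)
  linarith

/-- The ball at the level `lo`, starting from the level `lo + n`. -/
def down (a : Bl) (b : ℤ) (lo n : ℕ) (fl : Bool) : Option Bl :=
  (if fl then (if 4 ≤ lo + n then fstart (lev a (lo + n)) b else none)
    else xstart (lev a (lo + n)) b).bind fun k => kdown a b lo n k

theorem down_sound {A : ℂ} {B : ℕ} {Z : ℝ} {P Y : ℕ → ℂ} (hL : Lev A B Z P Y) (hB : 6 ≤ B)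
    (hZ : InZ Z) {b : ℤ} (hb : bb B = sr b) (hA : -(5 / 2) ≤ A.re - bb B) {a : Bl}
    (ha : a.Mem (aa A B 0)) {lo n : ℕ} {fl : Bool} {k : Bl} (hc : down a b lo n fl = some k) :
    KE B P Y lo k := by
  unfold down at hc
  obtain ⟨s, hs, e⟩ := Option.bind_eq_some_iff.1 hc
  refine kdown_sound hL hZ hb ha lo n e ?_
  split_ifs at hs with h1 h2
  · refine fstart_sound hL hB hZ hb ?_ (lev_mem ha _) hs
    have : (4 : ℝ) ≤ ((lo + n : ℕ) : ℝ) := by exact_mod_cast h2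
    unfold bb at hA
    linarith
  · exact xstart_sound hL hB hZ hb (lev_mem ha _) hs

end Vale.Agent.P139Z.NE
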