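import Vale.Agent.P139Z.Loc.Run

/-! A sharp ball enclosure of the Moebius step. -/

open Complex
open scoped ComplexConjugate

namespace Vale.Agent.P139Z.NE

open NumP Loc

/-- A cheap upper bound for the norm. -/
def uq (x y : ℤ) : ℤ := if |y| ≤ |x| then |x| + |y| / 2 + 1 else |y| + |x| / 2 + 1

theorem uq_aux {s t : ℤ} (ht : 0 ≤ t) (h : t ≤ s) :
    s * s + t * t ≤ (s + t / 2 + 1) * (s + t / 2 + 1) := by
  have h1 : t ≤ 2 * (t / 2 + 1) := by omega
  have h2 : 0 ≤ t / 2 + 1 := by omega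
  rw [add_assoc]
  generalize t / 2 + 1 = m at h1 h2
  nlinarith [mul_nonneg h2 h2, mul_le_mul h h1 ht (ht.trans h)]

theorem norm_le_uq (x y : ℤ) : ‖sc x y‖ ≤ sr (uq x y) := by
  have hx := abs_nonneg x
  have hy := abs_nonneg y
  unfold uq
  split_ifs with h
  · refine norm_le_of_sq (sr_nonneg (by omega)) ?_
    rw [sq_sc, pow_two, sr_mul, ← abs_mul_abs_self x, ← abs_mul_abs_self y]
    exact div_le_div_of_nonneg_right (sr_le (uq_aux hy h)) S_pos.le
  · refine norm_le_of_sq (sr_nonneg (by omega)) ?_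
    rw [sq_sc, pow_two, sr_mul, ← abs_mul_abs_self x, ← abs_mul_abs_self y, add_comm]
    exact div_le_div_of_nonneg_right (sr_le (uq_aux hx (by omega))) S_pos.le

theorem mem_norm_le {A : Bl} {z : ℂ} (hz : A.Mem z) : ‖z‖ ≤ sr (uq A.x A.y + A.r) := by
  have h := norm_add_le (sc A.x A.y) (z - sc A.x A.y)
  rw [add_sub_cancel] at h
  rw [sr_add]
  exact h.trans (add_le_add (norm_le_uq _ _) hz)

/-- Product rounded upward. -/
def up (a b : ℤ) : ℤ := a * b / S + 1

theorem le_up (a b : ℤ) : sr a * sr b ≤ sr (up a b) := by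
  rw [up, sr_add, sr_mul]; exact le_sr_div _

theorem mul_le_up {s t : ℝ} {a b : ℤ} (hs : s ≤ sr a) (ht : t ≤ sr b) (s0 : 0 ≤ s) (t0 : 0 ≤ t) :
    s * t ≤ sr (up a b) := (mul_le_mul hs ht t0 (s0.trans hs)).trans (le_up a b)

theorem sr_S : sr S = 1 := div_self S_pos.ne'

/-- Quotient rounded upward. -/
theorem div_le_sr {s t : ℝ} {a q : ℤ} (hs : s ≤ sr a) (ht : sr q ≤ t) (s0 : 0 ≤ s) (hq : 0 < q) :
    s / t ≤ sr (a * S / q + 1) := by
  have hq' : 0 < sr q := by rw [← sr_zero]; exact sr_lt hq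
  refine (div_le_div₀ (s0.trans hs) hs hq' ht).trans ?_
  have h3 := le_ediv (a * S) hq
  have hS := S_pos
  have hq2 : (0 : ℝ) < q := by exact_mod_cast hq
  simp only [sr]
  push_cast at h3 ⊢
  rw [le_div_iff₀ hS]
  refine le_trans (le_of_eq ?_) h3
  field_simp

/-- Product of a point of norm at most `n` and a ball. -/
def rmul (x y n : ℤ) (W : Bl) : Bl :=
  ⟨(x * W.x - y * W.y) / S, (x * W.y + y * W.x) / S, n * W.r / S + 3⟩

theorem rmul_mem {x y n : ℤ} (hn : ‖sc x y‖ ≤ sr n) {W : Bl} {w : ℂ} (hw : W.Mem w) :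
    (rmul x y n W).Mem (sc x y * w) := by
  unfold Bl.Mem rmul at *
  simp only
  have e0 : ‖sc x y * sc W.x W.y - sc ((x * W.x - y * W.y) / S) ((x * W.y + y * W.x) / S)‖
      ≤ sr 1 + sr 1 := by
    refine (norm_le_abs_re_add_abs_im _).trans (add_le_add ?_ ?_)
    · have := abs_round (x * W.x - y * W.y)
      simpa only [sc, sub_re, mul_re, sr_mul, sr_sub, sub_div] using this
    · have := abs_round (x * W.y + y * W.x)
      simpa only [sc, sub_im, mul_im, sr_mul, sr_add, add_div] using this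
  have e1 : sc x y * w - sc ((x * W.x - y * W.y) / S) ((x * W.y + y * W.x) / S)
      = sc x y * (w - sc W.x W.y) + (sc x y * sc W.x W.y
        - sc ((x * W.x - y * W.y) / S) ((x * W.y + y * W.x) / S)) := by ring
  have n1 : ‖sc x y * (w - sc W.x W.y)‖ ≤ sr n * sr W.r := by
    rw [norm_mul]
    exact mul_le_mul hn hw (norm_nonneg _) ((norm_nonneg _).trans hn)
  have e2 := le_sr_div (n * W.r)
  rw [← sr_mul] at e2
  have e3 : sr 3 = sr 1 + sr 1 + sr 1 := by rw [← sr_add, ← sr_add]; norm_num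
  rw [e1, sr_add, e3]
  refine (norm_add_le _ _).trans ?_
  linarith

theorem inv_real {z c : ℂ} {R q : ℝ} (h : ‖z - c‖ ≤ R) (hq : q = c.re ^ 2 + c.im ^ 2 - R ^ 2)
    (h0 : 0 < q) : z ≠ 0 ∧ ‖z⁻¹ - conj c / q‖ ≤ R / q := by
  have hR : 0 ≤ R := (norm_nonneg _).trans h
  have h1 : (z.re - c.re) ^ 2 + (z.im - c.im) ^ 2 ≤ R ^ 2 := by
    have := pow_le_pow_left₀ (norm_nonneg _) h 2
    rw [Complex.sq_norm, Complex.normSq_apply] at this
    simp only [sub_re, sub_im] at this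
    linarith
  have hz : z ≠ 0 := by
    rintro rfl
    simp only [zero_re, zero_im] at h1
    linarith
  refine ⟨hz, ?_⟩
  have hq' : (q : ℂ) ≠ 0 := by exact_mod_cast h0.ne'
  have e : z⁻¹ - conj c / q = (q - z * conj c) / (z * q) := by field_simp
  rw [e, norm_div, norm_mul, norm_real, Real.norm_eq_abs, abs_of_pos h0,
    div_le_div_iff₀ (mul_pos (norm_pos_iff.2 hz) h0) h0, ← mul_assoc]
  refine mul_le_mul_of_nonneg_right (norm_le_of_sq (by positivity) ?_) h0.le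
  rw [mul_pow, Complex.sq_norm, Complex.normSq_apply]
  simp only [sub_re, sub_im, mul_re, mul_im, conj_re, conj_im, ofReal_re, ofReal_im]
  have h2 := mul_nonneg h0.le (sub_nonneg.2 h1)
  rw [hq] at h2 ⊢
  nlinarith

theorem abs_round' (n : ℤ) {q : ℤ} (hq : 0 < q) : |(n : ℝ) / q / (S : ℝ) - sr (n / q)| ≤ sr 1 := by
  have h1 := div_le_div_of_nonneg_right (ediv_le n hq) S_pos.le
  have h2 := div_le_div_of_nonneg_right (le_ediv n hq) S_pos.le
  have h3 := sr_nonneg (show (0 : ℤ) ≤ 1 by norm_num)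
  simp only [sr] at *
  rw [add_div] at h2
  push_cast at *
  rw [abs_le]
  constructor <;> linarith

/-- The inverse of a ball. -/
def binv (x y r q : ℤ) : Bl := ⟨x * S * S / q, -y * S * S / q, r * S * S / q + 3⟩

theorem binv_mem {x y r : ℤ} (hq : 0 < x * x + y * y - r * r) {z : ℂ} (h : ‖z - sc x y‖ ≤ sr r) :
    z ≠ 0 ∧ (binv x y r (x * x + y * y - r * r)).Mem z⁻¹ := by
  have hS := S_pos
  obtain ⟨q, e⟩ : ∃ q, q = x * x + y * y - r * r := ⟨_, rfl⟩
  rw [← e] at hq ⊢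
  have hq2 : (0 : ℝ) < q := by exact_mod_cast hq
  obtain ⟨h1, h2⟩ := inv_real (q := (q : ℝ) / (S : ℝ) ^ 2) h
    (by rw [e]; simp only [sc, sr]; push_cast; field_simp) (by positivity)
  refine ⟨h1, ?_⟩
  unfold Bl.Mem binv
  simp only
  have e0 : ‖conj (sc x y) / (((q : ℝ) / (S : ℝ) ^ 2 : ℝ) : ℂ)
      - sc (x * S * S / q) (-y * S * S / q)‖ ≤ sr 1 + sr 1 := by
    refine (norm_le_abs_re_add_abs_im _).trans (add_le_add ?_ ?_)
    · refine le_trans (le_of_eq ?_) (abs_round' (x * S * S) hq)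
      rw [sub_re, div_ofReal_re]
      simp only [sc, conj_re, sr]
      push_cast
      congr 2
      field_simp
    · refine le_trans (le_of_eq ?_) (abs_round' (-y * S * S) hq)
      rw [sub_im, div_ofReal_im]
      simp only [sc, conj_im, sr]
      push_cast
      congr 2
      field_simp
  have e1 := (abs_le.1 (abs_round' (r * S * S) hq)).2
  have e2 : sr r / ((q : ℝ) / (S : ℝ) ^ 2) = ((r * S * S : ℤ) : ℝ) / q / (S : ℝ) := by
    simp only [sr]; push_cast; field_simp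
  have e3 : sr 3 = sr 1 + sr 1 + sr 1 := by rw [← sr_add, ← sr_add]; norm_num
  have e4 := norm_sub_le_norm_sub_add_norm_sub z⁻¹
    (conj (sc x y) / (((q : ℝ) / (S : ℝ) ^ 2 : ℝ) : ℂ)) (sc (x * S * S / q) (-y * S * S / q))
  rw [sr_add, e3]
  rw [e2] at h2
  linarith

/-- The last part of the step. -/
def mob3 (a A B C : Bl) (den : ℤ) : Option Bl :=
  if 0 < den then
    some ⟨a.x - C.x, a.y - C.y,
      C.r + (up a.r (up (uq (S - A.x) (0 - A.y) + A.r) (uq (S - B.x) (0 - B.y) + B.r)) * S / den + 1)⟩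
  else none

/-- The middle part of the step. -/
def mob2 (a W A : Bl) (b n : ℤ) : Option Bl :=
  mob3 a A (rmul (a.x - b) a.y n W) (rmul (a.x - b) a.y n A) (S - up a.r (uq W.x W.y + W.r))

/-- The step after the inversion. -/
def mob1 (a W : Bl) (b : ℤ) : Option Bl :=
  mob2 a W (rmul (a.x + b) a.y (ub (a.x + b) a.y) W) b (ub (a.x - b) a.y)

/-- Enclosure of the Moebius image, for a given centre of the denominator. -/
def mob0 (a : Bl) (x y r b : ℤ) : Option Bl :=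
  if 0 < x * x + y * y - r * r then mob1 a (binv x y r (x * x + y * y - r * r)) b else none

/-- Enclosure of the Moebius image. -/
def mob (a u : Bl) (b : ℤ) : Option Bl := mob0 a (a.x + u.x) (a.y + u.y) u.r b

theorem mob_sound {a u m : Bl} {b : ℤ} (h : mob a u b = some m) {α υ : ℂ} (ha : a.Mem α)
    (hu : u.Mem υ) : υ + α ≠ 0 ∧ m.Mem ((α * υ + (sr b : ℂ) ^ 2) / (υ + α)) := by
  unfold mob mob0 at h
  split_ifs at h with hq
  have hz : ‖(υ + sc a.x a.y) - sc (a.x + u.x) (a.y + u.y)‖ ≤ sr u.r := by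
    rw [sc_add, add_comm (sc a.x a.y), add_sub_add_right_eq_sub]; exact hu
  obtain ⟨hne, hW⟩ := binv_mem hq hz
  generalize binv _ _ _ _ = W at h hW
  unfold mob1 mob2 mob3 at h
  split_ifs at h with hd
  obtain rfl := Option.some.inj h
  have hA := rmul_mem (norm_le_ub (a.x + b) a.y) hW
  have hB := rmul_mem (norm_le_ub (a.x - b) a.y) hW
  have hC := rmul_mem (norm_le_ub (a.x - b) a.y) hA
  generalize rmul (a.x + b) a.y (ub (a.x + b) a.y) W = A at hA hC ⊢
  generalize rmul (a.x - b) a.y (ub (a.x - b) a.y) W = B at hB ⊢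
  generalize rmul (a.x - b) a.y (ub (a.x - b) a.y) A = C at hC ⊢
  have p1 : sc (a.x + b) a.y = sc a.x a.y + sr b := by
    rw [← sc_real, ← sc_add, add_zero]
  have p2 : sc (a.x - b) a.y = sc a.x a.y - sr b := by
    rw [← sc_real, ← sc_sub, sub_zero]
  rw [p1] at hA hC
  rw [p2] at hB hC
  have m1 : (pt S).Mem 1 := by have := pt_mem S; rwa [sr_S, ofReal_one] at this
  have nA := mem_norm_le (m1.sub hA)
  have nB := mem_norm_le (m1.sub hB)
  simp only [Bl.sub, pt, zero_add] at nA nB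
  obtain ⟨a₀, e₀⟩ : ∃ a₀, a₀ = sc a.x a.y := ⟨_, rfl⟩
  unfold Bl.Mem at ha
  rw [← e₀] at ha hA hB hC nA nB hne hW
  obtain ⟨w, ew⟩ : ∃ w, w = (υ + a₀)⁻¹ := ⟨_, rfl⟩
  rw [← ew] at hA hB hC nA nB hW
  have hw1 : (υ + a₀) * w = 1 := by rw [ew]; exact mul_inv_cancel₀ hne
  have d1 : ‖(α - a₀) * w‖ ≤ sr (up a.r (uq W.x W.y + W.r)) := by
    rw [norm_mul]; exact mul_le_up ha (mem_norm_le hW) (norm_nonneg _) (norm_nonneg _)
  have d2 : sr (S - up a.r (uq W.x W.y + W.r)) ≤ ‖1 + (α - a₀) * w‖ := by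
    have := norm_sub_le (1 + (α - a₀) * w) ((α - a₀) * w)
    rw [add_sub_cancel_right, norm_one] at this
    rw [sr_sub, sr_S]
    linarith
  have d3 : 1 + (α - a₀) * w ≠ 0 := by
    have : 0 < sr (S - up a.r (uq W.x W.y + W.r)) := by rw [← sr_zero]; exact sr_lt hd
    exact norm_pos_iff.1 (by linarith)
  have e1 : υ + α = (υ + a₀) * (1 + (α - a₀) * w) := by linear_combination (a₀ - α) * hw1
  have hne' : υ + α ≠ 0 := by rw [e1]; exact mul_ne_zero hne d3
  refine ⟨hne', ?_⟩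
  have e2 : (α * υ + (sr b : ℂ) ^ 2) / (υ + α) = a₀ - (a₀ - sr b) * ((a₀ + sr b) * w)
      + (α - a₀) * ((1 - (a₀ + sr b) * w) * (1 - (a₀ - sr b) * w)) / (1 + (α - a₀) * w) := by
    have hE := div_mul_cancel₀ ((α - a₀) * ((1 - (a₀ + sr b) * w) * (1 - (a₀ - sr b) * w))) d3
    rw [div_eq_iff hne', e1]
    linear_combination (a₀ ^ 2 - (sr b : ℂ) ^ 2 + a₀ * (α - a₀)) * hw1 - (υ + a₀) * hE
  have n3 : ‖(α - a₀) * ((1 - (a₀ + sr b) * w) * (1 - (a₀ - sr b) * w)) / (1 + (α - a₀) * w)‖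
      ≤ sr (up a.r (up (uq (S - A.x) (0 - A.y) + A.r) (uq (S - B.x) (0 - B.y) + B.r)) * S
        / (S - up a.r (uq W.x W.y + W.r)) + 1) := by
    rw [norm_div]
    refine div_le_sr ?_ d2 (norm_nonneg _) hd
    rw [norm_mul, norm_mul]
    exact mul_le_up ha (mul_le_up nA nB (norm_nonneg _) (norm_nonneg _)) (norm_nonneg _)
      (by positivity)
  unfold Bl.Mem at hC ⊢
  simp only
  rw [e2, sc_sub, ← e₀, sr_add]
  generalize (α - a₀) * ((1 - (a₀ + sr b) * w) * (1 - (a₀ - sr b) * w)) / (1 + (α - a₀) * w) = E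
    at n3 ⊢
  have e5 : a₀ - (a₀ - sr b) * ((a₀ + sr b) * w) + E - (a₀ - sc C.x C.y)
      = E - ((a₀ - sr b) * ((a₀ + sr b) * w) - sc C.x C.y) := by ring
  rw [e5]
  refine (norm_sub_le _ _).trans ?_
  linarith

end Vale.Agent.P139Z.NE
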