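import Vale.Agent.P139Z.NE.Tree

/-! Certificates, part 0. -/

namespace Vale.Agent.P139Z.NE

theorem c0_0 : Ok 0 2500000000000 0 0 156250000000 195312500000 := ⟨
  (.Y (.X (.Y (.X (.Y .C (.X .C (.Y .C (.X .C (.A 4 4))))) (.Y (.X (.Y .C (.X .C (.A 4 4))) (.Y
  (.A 4 4) (.A 4 4))) (.X (.Y (.X .C (.A 4 4)) (.A 4 5)) (.A 5 5)))) (.X (.Y (.X (.Y (.X (.A 4
  5) (.A 4 5)) (.A 6 7)) (.Y (.A 5 5) (.A 4 5))) (.X (.Y (.A 5 5) (.A 4 5)) (.Y (.A 4 4) (.A 4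
  4)))) (.Y (.X (.Y (.A 4 5) (.A 4 4)) (.A 4 5)) (.X (.A 5 4) (.A 4 4))))) (.Y (.X (.Y (.X (.A 4
  5) (.A 4 4)) (.X (.A 4 4) (.A 4 4))) (.Y (.A 4 5) (.A 4 5))) (.X (.Y (.X (.A 4 4) (.A 4 4))
  (.X (.A 4 4) (.A 4 4))) (.Y (.A 4 4) (.A 4 4))))) (.X (.Y (.X (.Y (.X (.Y (.A 4 4) (.A 4 4))
  (.A 5 4)) (.X (.A 5 4) (.A 4 5))) (.Y (.X (.A 4 4) (.A 4 4)) (.X (.A 4 4) (.A 4 4)))) (.X (.Y
  (.X (.A 5 4) (.A 4 5)) (.X (.A 5 5) (.A 5 4))) (.Y (.X (.A 4 4) (.A 4 4)) (.X (.A 4 4) (.A 4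
  4))))) (.Y (.X (.Y (.A 5 5) (.A 5 5)) (.Y (.A 4 4) (.A 4 4))) (.X (.Y (.A 5 4) (.A 5 4)) (.Y
  (.A 4 4) (.A 4 4)))))),
  by decide +kernel⟩

theorem c0_1 : Ok 0 2500000000000 312500000000 0 156250000000 195312500000 := ⟨
  (.Y (.X (.Y (.X (.Y (.A 4 4) (.A 4 4)) (.A 5 5)) (.X (.Y (.A 4 4) (.A 4 4)) (.A 5 4))) (.Y (.X
  (.A 4 4) (.A 4 4)) (.X (.A 4 4) (.A 4 4)))) (.X (.Y (.X (.Y (.A 4 4) (.A 4 3)) (.A 4 4)) (.X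
  (.A 7 7) (.A 4 4))) (.Y (.X (.A 4 4) (.A 4 3)) (.X (.A 4 3) (.A 4 3))))),
  by decide +kernel⟩

theorem c0_2 : Ok 0 2500000000000 0 390625000000 156250000000 97656250000 := ⟨
  (.X (.Y (.X (.Y (.X (.Y (.A 5 4) (.A 5 4)) (.A 5 5)) (.X (.Y (.A 5 4) (.X (.A 5 3) (.A 4 4)))
  (.Y (.A 5 3) (.A 5 3)))) (.Y (.X (.A 5 4) (.A 4 4)) (.X (.A 5 4) (.A 4 4)))) (.X (.Y (.X (.Y
  (.X (.A 5 3) (.A 4 4)) (.X (.A 5 3) (.A 4 4))) (.Y (.A 5 3) (.A 5 3))) (.X (.Y (.X (.A 5 3)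
  (.A 4 4)) (.X (.A 5 3) (.A 4 4))) (.Y (.A 5 3) (.A 5 3)))) (.Y (.X (.A 5 4) (.A 4 4)) (.X (.A
  5 4) (.A 5 3))))) (.Y (.X (.Y (.A 5 5) (.A 5 5)) (.Y (.A 4 4) (.A 4 4))) (.X (.Y (.A 5 4) (.A
  5 4)) (.Y (.A 4 4) (.A 4 4))))),
  by decide +kernel⟩

theorem c0_3 : Ok 0 2500000000000 0 585937500000 156250000000 97656250000 := ⟨
  (.X (.Y (.X (.Y (.X (.Y (.A 5 4) (.A 5 4)) (.Y (.A 5 3) (.A 5 3))) (.X (.Y (.A 5 3) (.A 5 3))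
  (.A 5 4))) (.Y (.X (.A 5 4) (.A 4 4)) (.X (.A 5 3) (.A 4 4)))) (.X (.Y (.X (.A 5 4) (.A 5 3))
  (.X (.A 5 3) (.A 5 3))) (.Y (.X (.A 5 3) (.A 4 3)) (.A 5 5)))) (.Y (.X (.Y (.A 5 4) (.A 5 4))
  (.Y (.A 4 3) (.A 4 3))) (.X (.Y (.A 5 3) (.A 5 3)) (.A 5 4)))),
  by decide +kernel⟩

theorem c0_4 : Ok 0 2500000000000 312500000000 390625000000 156250000000 195312500000 := ⟨
  (.Y (.X (.Y (.X (.A 5 4) (.A 4 4)) (.X (.A 5 4) (.A 4 3))) (.Y (.X (.A 4 3) (.A 4 3)) (.X (.A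
  4 3) (.A 4 3)))) (.X (.Y (.X (.A 4 4) (.A 4 3)) (.X (.A 4 4) (.A 4 3))) (.Y (.A 5 5) (.A 4
  4)))),
  by decide +kernel⟩

theorem c0_5 : Ok 0 2500000000000 625000000000 0 312500000000 390625000000 := ⟨
  (.Y (.X (.Y (.X (.Y (.X (.A 4 4) (.Y (.A 3 4) (.A 3 4))) (.X (.A 4 4) (.A 4 4))) (.Y (.X (.Y
  (.A 4 4) (.A 4 4)) (.Y (.X (.A 4 4) .C) (.X (.A 3 4) (.A 4 4)))) (.X (.Y (.A 3 4) (.A 3 3))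
  (.Y (.A 5 5) (.A 3 4))))) (.X (.Y (.X (.A 4 3) (.A 4 3)) (.X (.A 3 4) (.A 3 3))) (.Y (.X (.A 4
  3) (.A 4 3)) (.X (.A 3 3) (.A 3 3))))) (.Y (.X (.Y (.X .C (.Y .C (.X .C (.A 4 3)))) (.X (.Y
  (.X (.A 3 4) (.A 3 4)) (.A 4 3)) (.Y (.X (.A 3 3) (.A 3 3)) (.A 3 3)))) (.Y (.X (.Y (.A 4 4)
  (.A 3 4)) (.A 3 3)) (.X (.A 4 4) (.A 3 3)))) (.X (.Y (.X (.A 4 3) (.A 3 3)) (.A 4 4)) (.Y (.A
  4 4) (.A 3 3))))) (.X (.Y (.X (.Y (.A 4 5) (.A 4 3)) (.Y (.A 4 3) (.A 3 4))) (.X (.Y (.A 4 3)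
  (.A 4 3)) (.A 4 4))) (.Y (.X (.A 6 6) (.A 3 3)) (.X (.A 3 3) (.A 3 2))))),
  by decide +kernel⟩

theorem c0_6 : Ok 0 2500000000000 0 781250000000 625000000000 390625000000 := ⟨
  (.X (.Y (.X (.Y (.X (.Y (.X (.Y (.X (.A 5 3) (.A 5 3)) (.A 5 4)) (.Y (.A 5 4) (.A 5 3))) (.X
  (.Y (.A 5 4) (.A 5 3)) (.A 6 5))) (.Y (.X (.A 6 5) (.A 5 3)) (.X (.A 5 3) (.A 4 4)))) (.X (.Y
  (.X (.A 6 4) (.A 5 3)) (.X (.A 5 3) (.A 5 3))) (.Y (.X (.A 5 3) (.A 4 3)) (.A 6 4)))) (.Y (.X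
  (.Y (.X (.A 4 3) (.A 4 3)) (.A 5 4)) (.Y (.A 4 3) (.A 4 3))) (.X (.Y (.A 5 3) (.A 4 4)) (.A 5
  4)))) (.X (.Y (.X (.Y (.X (.A 5 3) (.A 5 3)) (.A 6 4)) (.Y (.A 5 4) (.A 5 3))) (.X (.Y (.A 6
  3) (.A 5 4)) (.A 7 6))) (.Y (.X (.A 6 4) (.A 4 4)) (.X (.A 5 3) (.A 4 3))))) (.Y (.X (.Y (.X
  (.A 4 4) (.A 4 3)) (.X (.A 4 3) (.A 3 3))) (.Y (.A 4 4) (.A 4 3))) (.X (.Y (.A 6 4) (.A 5 3))
  (.A 6 6)))),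
  by decide +kernel⟩

theorem c0_7 : Ok 0 2500000000000 1250000000000 0 625000000000 781250000000 := ⟨
  (.Y (.X (.Y (.X (.Y (.X (.Y (.A 3 3) (.A 3 3)) (.A 2 3)) (.X (.A 3 3) (.A 2 3))) (.Y (.A 2 3)
  (.A 2 2))) (.X (.Y (.A 4 3) (.A 3 3)) (.A 3 2))) (.Y (.A 3 2) (.A 2 3))) (.X (.Y (.X (.A 4 3)
  (.A 3 2)) (.X (.A 3 3) (.A 2 3))) (.Y (.A 2 2) (.A 2 3)))),
  by decide +kernel⟩

theorem c0_8 : Ok 0 2500000000000 0 1562500000000 1250000000000 781250000000 := ⟨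
  (.X (.Y (.X (.Y (.X (.Y (.X (.Y (.A 5 3) (.A 5 3)) (.A 5 4)) (.X (.A 6 4) (.A 5 3))) (.Y (.X
  (.A 5 3) (.A 4 3)) (.A 6 4))) (.X (.Y (.X (.A 6 3) (.A 5 3)) (.A 8 5)) (.Y (.A 5 4) (.A 5
  3)))) (.Y (.X (.Y (.A 4 4) (.A 4 3)) (.A 4 3)) (.X (.A 6 3) (.A 4 3)))) (.X (.Y (.X (.Y (.A 7
  3) (.A 6 4)) (.A 7 4)) (.X (.F 10 5) (.A 6 3))) (.Y (.X (.A 5 3) (.A 4 3)) (.A 7 4)))) (.Y (.X
  (.Y (.A 5 4) (.A 4 4)) (.A 4 3)) (.X (.Y (.A 4 3) (.A 4 3)) (.A 4 3)))),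
  by decide +kernel⟩

theorem c0_9 : Ok 0 2500000000000 0 3125000000000 1250000000000 1562500000000 := ⟨
  (.Y (.X (.Y (.X (.Y (.X (.F 7 3) (.A 6 3)) (.X (.A 7 3) (.A 6 3))) (.Y (.A 6 4) (.F 6 3))) (.X
  (.Y (.F 10 3) (.F 8 3)) (.F 10 4))) (.Y (.X (.A 6 4) (.A 5 2)) (.X (.A 6 4) (.A 5 3)))) (.X
  (.Y (.X (.F 17 5) (.A 8 4)) (.X (.F 10 4) (.A 8 4))) (.Y (.F 10 4) (.F 10 3)))),
  by decide +kernel⟩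

theorem c0_10 : Ok 0 2500000000000 0 6250000000000 1250000000000 3125000000000 := ⟨
  (.Y (.Y (.X (.Y (.X (.F 10 3) (.F 10 3)) (.F 17 4)) (.Y (.F 10 3) (.F 10 3))) (.X (.Y (.F 14
  3) (.F 14 3)) (.F 14 6))) (.Y (.X (.Y (.F 14 3) (.F 14 3)) (.F 14 4)) (.X (.F 20 3) (.F 17
  3)))),
  by decide +kernel⟩

theorem c0_11 : Ok 0 2500000000000 0 12500000000000 1250000000000 6250000000000 := ⟨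
  (.Y (.Y (.Y (.X (.F 20 3) (.F 17 3)) (.X (.F 20 3) (.F 17 3))) (.Y (.X (.E 5) (.E 6)) (.E 7)))
  (.Y (.E 5) (.E 4))),
  by decide +kernel⟩

theorem c0_12 : Ok 0 2500000000000 0 25000000000000 1250000000000 12500000000000 := ⟨
  (.Y (.Y (.E 4) (.E 4)) (.E 4)),
  by decide +kernel⟩

theorem c0_13 : Ok 0 2500000000000 0 50000000000000 1250000000000 25000000000000 := ⟨
  (.Y (.E 4) (.E 4)),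
  by decide +kernel⟩

theorem c0_14 : Ok 0 2500000000000 0 100000000000000 1250000000000 50000000000000 := ⟨
  (.Y (.E 4) (.E 4)),
  by decide +kernel⟩

theorem c0_15 : Ok 0 2500000000000 0 200000000000000 1250000000000 100000000000000 := ⟨
  (.Y (.E 4) (.E 4)),
  by decide +kernel⟩

theorem c1_0 : Ok 1 3000000000000 0 0 19531250000 12207031250 := ⟨
  (.X (.Y (.X (.Y (.X (.A 6 6) (.A 6 6)) (.X (.A 6 6) (.A 6 6))) (.Y (.X (.A 6 6) (.A 6 6)) (.X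
  (.A 6 6) (.A 5 7)))) (.X (.Y (.X (.A 6 6) (.A 6 6)) (.X (.A 6 6) (.A 6 6))) (.Y (.X (.A 6 6)
  (.A 5 7)) (.X (.A 6 6) (.A 5 7))))) (.Y (.X (.Y (.X (.A 5 6) (.A 5 6)) (.X (.A 5 6) (.A 5 6)))
  (.Y (.A 7 8) (.A 7 8))) (.X (.Y (.X (.A 5 6) (.A 5 6)) (.X (.A 5 6) (.A 5 6))) (.Y (.A 7 7)
  (.A 7 7))))),
  by decide +kernel⟩

theorem c1_1 : Ok 1 3000000000000 0 24414062500 19531250000 12207031250 := ⟨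
  (.X (.Y (.X (.Y (.X (.A 6 6) (.A 6 6)) (.X (.A 6 6) (.A 6 6))) (.Y (.X (.A 6 6) (.A 5 7)) (.X
  (.A 6 6) (.A 5 6)))) (.X (.Y (.X (.A 6 6) (.A 6 6)) (.X (.A 6 6) (.A 6 6))) (.Y (.X (.A 5 7)
  (.A 5 6)) (.X (.A 5 7) (.A 5 6))))) (.Y (.X (.Y (.X (.A 5 6) (.A 5 6)) (.X (.A 5 6) (.A 5 6)))
  (.Y (.A 7 7) (.A 7 7))) (.X (.Y (.X (.A 5 6) (.A 5 6)) (.X (.A 5 6) (.A 5 6))) (.Y (.A 6 7)
  (.A 6 7))))),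
  by decide +kernel⟩

end Vale.Agent.P139Z.NE
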