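import Vale.Agent.P139Z.NE.Chain

/-! The checks on single cells and on trees of cells. -/

open Complex
open scoped ComplexConjugate

namespace Vale.Agent.P139Z.NE

open NumP Loc Alg

/-- The determinant of the boundary conditions. -/
def detG (a c k h B : Bl) : Bl :=
  (((a.add B).mul (k.sub B)).mul (c.sub h)).add (((c.add B).mul (h.sub B)).mul (a.sub k))

/-- The complex conjugate of a ball. -/
def cj (k : Bl) : Bl := ⟨k.x, -k.y, k.r⟩

/-- The determinant check. -/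
def modeA (a a' : Bl) (b : ℤ) (n n' : ℕ) (fl : Bool) : Bool :=
  ((down a b 1 n false).bind fun k => (down a' b 1 n' fl).bind fun h =>
    some (detG a (cj a') (k.add ⟨0, Zc, Zr⟩) (cj (h.add ⟨0, Zc, Zr⟩)) (pt b)).ok).getD false

theorem getD_true {α : Type} {o : Option α} {f : α → Option Bool}
    (h : (o.bind f).getD false = true) : ∃ a, o = some a ∧ (f a).getD false = true := by
  cases o with
  | none => exact absurd h (by simp)
  | some a => exact ⟨a, rfl, h⟩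

theorem rel0 {A : ℂ} {B : ℕ} {Z : ℝ} {P Y : ℕ → ℂ} (hL : Lev A B Z P Y) {κ : ℂ}
    (e : pp B P Y 1 = κ * Y 1) : (aa A B 0 - (κ + I * Z)) * P 0
      = (aa A B 0 + bb B) * (κ + I * Z - bb B) * Y 0 := by
  have y1 := rec_y hL 0
  have p1 := rec_p hL 0
  simp only [zero_add] at y1 p1
  rw [e, y1, pp] at p1
  linear_combination -p1

theorem modeA_sound {A A' : ℂ} {B : ℕ} {Z : ℝ} {P Y P' Y' : ℕ → ℂ} (hL : Lev A B Z P Y)
    (hL' : Lev A' B Z P' Y') (hB : 6 ≤ B) (hZ : InZ Z) {b : ℤ} (hb : bb B = sr b)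
    (hA : -(5 / 2) ≤ A.re - bb B) (hA' : -(5 / 2) ≤ A'.re - bb B) {a a' : Bl}
    (ha : a.Mem (aa A B 0)) (ha' : a'.Mem (aa A' B 0)) (hY : Y 0 + conj (Y' 0) = 0)
    (hP : P 0 - conj (P' 0) = 0) {n n' : ℕ} {fl : Bool} (hc : modeA a a' b n n' fl = true) :
    P 0 = 0 ∧ Y 0 = 0 := by
  rw [modeA] at hc
  obtain ⟨k, hk, hc⟩ := getD_true hc
  obtain ⟨h, hh, hc⟩ := getD_true hc
  rw [Option.getD_some] at hc
  obtain ⟨κ, mκ, eκ⟩ := down_sound hL hB hZ hb hA ha hk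
  obtain ⟨μ, mμ, eμ⟩ := down_sound hL' hB hZ hb hA' ha' hh
  have r1 := rel0 hL eκ
  have r2 := congrArg conj (rel0 hL' eμ)
  have mb : (pt b).Mem (bb B : ℝ) := by rw [hb]; exact pt_mem b
  have mk := mκ.add (mem_Z hZ)
  have mh : (cj (h.add ⟨0, Zc, Zr⟩)).Mem (conj (μ + I * Z)) := mem_conj (mμ.add (mem_Z hZ))
  have mc : (cj a').Mem (conj (aa A' B 0)) := mem_conj ha'
  have hG := ((((ha.add mb).mul (mk.sub mb)).mul (mc.sub mh)).add
    (((mc.add mb).mul (mh.sub mb)).mul (ha.sub mk))).ne hc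
  have e1 : conj (Y' 0) = -Y 0 := by linear_combination hY
  have e2 : conj (P' 0) = P 0 := by linear_combination -hP
  rw [map_mul, map_mul, map_mul, map_sub, map_add conj (aa A' B 0), map_sub, conj_ofReal, e1, e2]
    at r2
  generalize conj (μ + I * Z) = h' at r2 hG
  generalize conj (aa A' B 0) = c' at r2 hG
  generalize κ + I * Z = k' at r1 hG
  generalize aa A B 0 = α at r1 hG
  constructor
  · refine (mul_eq_zero.1 ?_).resolve_left hG
    linear_combination (α + bb B) * (k' - bb B) * r2 + (c' + bb B) * (h' - bb B) * r1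
  · refine (mul_eq_zero.1 ?_).resolve_left hG
    linear_combination (α - k') * r2 - (c' - h') * r1

/-- The last part of the chain check. -/
def endD (a a' h : Bl) (b : ℤ) : Bool :=
  decide (0 ≤ a.y - a.r) && decide (0 ≤ -(a'.y + a'.r)) &&
    decide (0 < ((a.y - a.r) * (a.y - a.r) + b * b) / S) &&
    decide (0 < (-(a'.y + a'.r) * -(a'.y + a'.r) + b * b) / S) &&
    decide (xb (ub (h.x - (b + b)) (h.y - 0) + (h.r + 0)) (a.y - a.r) (a.y + a.r) b
      + xb (ub h.x h.y + h.r) (-(a'.y + a'.r)) (-(a'.y - a'.r)) b < b + b)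

/-- The chain check. -/
def modeD (a a' : Bl) (b : ℤ) (n' : ℕ) (fl : Bool) : Bool :=
  ((down a' b 0 n' fl).bind fun h => some (endD a a' h b)).getD false

theorem sr_neg (x : ℤ) : sr (-x) = -sr x := by simp [sr, neg_div]

theorem modeD_sound {A A' : ℂ} {B : ℕ} {Z : ℝ} {P Y P' Y' : ℕ → ℂ} (hL : Lev A B Z P Y)
    (hL' : Lev A' B Z P' Y') (hB : 6 ≤ B) (hZ : InZ Z) {b : ℤ} (hb : bb B = sr b)
    (hA : -(5 / 2) ≤ A.re - bb B) (hA' : -(5 / 2) ≤ A'.re - bb B) (gA : A.re - bb B ≤ 0)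
    (gA' : A'.re - bb B ≤ 0) {a a' : Bl} (ha : a.Mem (aa A B 0)) (ha' : a'.Mem (aa A' B 0))
    (hY : Y 0 + conj (Y' 0) = 0) (hP : P 0 - conj (P' 0) = 0) {n' : ℕ} {fl : Bool}
    (hc : modeD a a' b n' fl = true) : P 0 = 0 ∧ Y 0 = 0 := by
  rw [modeD] at hc
  obtain ⟨h, hh, hc⟩ := getD_true hc
  rw [Option.getD_some] at hc
  simp only [endD, Bool.and_eq_true, decide_eq_true_eq] at hc
  obtain ⟨⟨⟨⟨c1, c2⟩, c3⟩, c4⟩, c5⟩ := hc
  obtain ⟨μ, mμ, eμ⟩ := down_sound hL' hB hZ hb hA' ha' hh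
  have eY : Y 0 = -conj (Y' 0) := eq_neg_of_add_eq_zero_left hY
  have eP : P 0 = conj (P' 0) := sub_eq_zero.1 hP
  have nY : ‖Y 0‖ = ‖Y' 0‖ := by rw [eY, norm_neg, Complex.norm_conj]
  have n1 : ‖pp B P' Y' 0‖ ≤ sr (ub h.x h.y + h.r) * ‖Y' 0‖ := by
    rw [eμ, norm_mul]
    exact mul_le_mul_of_nonneg_right mμ.norm_le (norm_nonneg _)
  have n2 : ‖pp B P Y 0‖ ≤ sr (ub (h.x - (b + b)) (h.y - 0) + (h.r + 0)) * ‖Y 0‖ := by
    have e : pp B P Y 0 = conj ((μ - (sr (b + b) : ℝ)) * Y' 0) := by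
      rw [sub_mul, ← eμ, pp, pp, eP, eY, sr_add, ← hb]
      simp only [map_sub, map_add, map_mul, conj_ofReal, ofReal_add]
      ring
    have m := (mμ.sub (pt_mem (b + b))).norm_le
    simp only [Bl.sub, pt] at m
    rw [e, Complex.norm_conj, norm_mul, nY]
    exact mul_le_mul_of_nonneg_right m (norm_nonneg _)
  obtain ⟨i1, i2⟩ := im_bd ha
  obtain ⟨i3, i4⟩ := im_bd ha'
  rw [aa_im] at i1 i2 i3 i4
  have s1 := sr_nonneg c1
  have s2 := sr_nonneg c2
  rw [sr_neg] at s2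
  have x1 := xb_sound hL hB hZ hb hA gA (w₁ := a.y + a.r) c1
    (by rw [abs_of_nonneg (by linarith)]; exact i1) (by rw [abs_of_nonneg (by linarith)]; exact i2)
    c3 n2
  have x2 := xb_sound hL' hB hZ hb hA' gA' (w₁ := -(a'.y - a'.r)) c2
    (by rw [abs_of_nonpos (by linarith), sr_neg]; linarith)
    (by rw [abs_of_nonpos (by linarith), sr_neg]; linarith) c4 n1
  have c6 := sr_lt c5
  rw [sr_add, sr_add b b, ← hb] at c6
  rw [X_eq, ← bb] at x1 x2
  have xs : (conj (Y 0) * P 0).re + (conj (Y' 0) * P' 0).re = 0 := by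
    rw [eY, eP]
    simp only [map_neg, Complex.conj_conj, mul_re, neg_re, neg_im, conj_re, conj_im]
    ring
  rw [← nY] at x2
  have y0 : Y 0 = 0 := by
    by_contra hne
    have := mul_lt_mul_of_pos_right c6 (show 0 < ‖Y 0‖ ^ 2 by positivity)
    linarith
  refine ⟨?_, y0⟩
  rw [pp, y0] at n2
  simpa using n2

/-- The cell lies in an excluded disc. -/
def modeC (l : ℕ) (c : Bl) : Bool :=
  (decide (l = 0) && (decide (ub c.x c.y + c.r < 125000000000) ||
    decide (ub (c.x - S) (c.y - 0) + (c.r + 0) < 125000000000))) ||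
  (decide (l = 1) && decide (ub (c.x - 500000000000) (c.y - 0) + (c.r + 0) < 125000000000))

theorem modeC_sound {l : ℕ} {c : Bl} {lam : ℂ} (hm : c.Mem lam)
    (hl0 : l = 0 → 1 / 8 ≤ ‖lam‖ ∧ 1 / 8 ≤ ‖lam - 1‖) (hl1 : l = 1 → 1 / 8 ≤ ‖lam - 1 / 2‖)
    (hc : modeC l c = true) : False := by
  simp only [modeC, Bool.or_eq_true, Bool.and_eq_true, decide_eq_true_eq] at hc
  have e8 : sr 125000000000 = 1 / 8 := by simp only [sr, S]; norm_num
  rcases hc with ⟨h0, h | h⟩ | ⟨h0, h⟩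
  · have := hm.norm_le.trans_lt (sr_lt h)
    linarith [(hl0 h0).1]
  · have m := (hm.sub (pt_mem S)).norm_le
    simp only [Bl.sub, pt, sr_S, ofReal_one] at m
    have := m.trans_lt (sr_lt h)
    linarith [(hl0 h0).2]
  · have m := (hm.sub (pt_mem 500000000000)).norm_le
    have e2 : ((sr 500000000000 : ℝ) : ℂ) = 1 / 2 := by
      rw [show sr 500000000000 = 1 / 2 by simp only [sr, S]; norm_num]; simp
    simp only [Bl.sub, pt, e2] at m
    have := m.trans_lt (sr_lt h)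
    linarith [hl1 h0]

/-- Certificates. -/
inductive T where
  | A (n n' : ℕ) : T
  | F (n n' : ℕ) : T
  | D (n' : ℕ) : T
  | E (n' : ℕ) : T
  | C : T
  | X (s t : T) : T
  | Y (s t : T) : T

/-- The shift from `lam` to the parameter at the level zero. -/
def sh : Bl := ⟨-2500000000000, -334780000000, 50000000⟩

/-- The ball around a cell. -/
def cb (x y h k : ℤ) : Bl := ⟨x + h, y + k, ub h k⟩

/-- The checker. -/
def chk (l : ℕ) (b : ℤ) : T → ℤ → ℤ → ℤ → ℤ → Bool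
  | .A n n', x, y, h, k => modeA ((cb x y h k).add sh) ((cj (cb x y h k)).add sh) b n n' false
  | .F n n', x, y, h, k => modeA ((cb x y h k).add sh) ((cj (cb x y h k)).add sh) b n n' true
  | .D n', x, y, h, k => modeD ((cb x y h k).add sh) ((cj (cb x y h k)).add sh) b n' false
  | .E n', x, y, h, k => modeD ((cb x y h k).add sh) ((cj (cb x y h k)).add sh) b n' true
  | .C, x, y, h, k => modeC l (cb x y h k)
  | .X s t, x, y, h, k =>
    chk l b s x y ((h + 1) / 2) k && chk l b t (x + 2 * ((h + 1) / 2)) y ((h + 1) / 2) k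
  | .Y s t, x, y, h, k =>
    chk l b s x y h ((k + 1) / 2) && chk l b t x (y + 2 * ((k + 1) / 2)) h ((k + 1) / 2)

theorem cb_mem {x y h k : ℤ} {z : ℂ} (x0 : sr x ≤ z.re) (x1 : z.re ≤ sr (x + 2 * h))
    (y0 : sr y ≤ z.im) (y1 : z.im ≤ sr (y + 2 * k)) : (cb x y h k).Mem z := by
  rw [two_mul, sr_add, sr_add] at x1 y1
  refine le_trans (norm_le_of_sq (norm_nonneg _) ?_) (norm_le_ub h k)
  rw [Complex.sq_norm, Complex.normSq_apply]
  simp only [cb, sc, sub_re, sub_im, sr_add]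
  nlinarith

theorem sh_mem {β : ℝ} (hβ : InB β) : sh.Mem (-(5 / 2) - I * β) := by
  refine (norm_le_abs_re_add_abs_im _).trans ?_
  obtain ⟨b0, b1⟩ := hβ
  have e : sr (-2500000000000) = -(5 / 2) := by simp only [sr, S]; norm_num
  have e1 : (-(5 / 2) - I * β - sc sh.x sh.y).re = 0 := by simp [sc, sh, e]
  have e2 : (-(5 / 2) - I * β - sc sh.x sh.y).im = -β - sr (-334780000000) := by simp [sc, sh]
  rw [e1, e2, abs_zero, zero_add, abs_le]
  simp only [sr, S, sh]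
  constructor <;> norm_num <;> linarith

theorem aa_eq (l : ℕ) (lam : ℂ) (β : ℝ) :
    aa (l / 2 + lam - I * β) (6 + l) 0 = lam + (-(5 / 2) - I * β) := by
  rw [aa, bb_coe]; push_cast; ring

theorem chk_sound {β Z : ℝ} (hβ : InB β) (hZ : InZ Z) {l : ℕ} {b : ℤ} (hb : bb (6 + l) = sr b)
    {lam : ℂ} (h0 : 0 ≤ lam.re) (h1 : lam.re ≤ 5 / 2)
    (hl0 : l = 0 → 1 / 8 ≤ ‖lam‖ ∧ 1 / 8 ≤ ‖lam - 1‖) (hl1 : l = 1 → 1 / 8 ≤ ‖lam - 1 / 2‖)
    (t : T) {x y h k : ℤ} (hc : chk l b t x y h k = true) (x0 : sr x ≤ lam.re)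
    (x1 : lam.re ≤ sr (x + 2 * h)) (y0 : sr y ≤ lam.im) (y1 : lam.im ≤ sr (y + 2 * k)) :
    NoEigAt β Z l lam := by
  intro P Y P' Y' hL hL' hY hP
  have r1 : ((l : ℂ) / 2 + lam - I * β).re - bb (6 + l) = lam.re - 5 / 2 := by
    simp [bb]; ring
  have r2 : ((l : ℂ) / 2 + conj lam - I * β).re - bb (6 + l) = lam.re - 5 / 2 := by
    simp [bb]; ring
  have mA : ∀ {c : Bl}, c.Mem lam → (c.add sh).Mem (aa (l / 2 + lam - I * β) (6 + l) 0) :=
    fun hm => by rw [aa_eq]; exact hm.add (sh_mem hβ)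
  have mA' : ∀ {c : Bl}, c.Mem lam →
      ((cj c).add sh).Mem (aa (l / 2 + conj lam - I * β) (6 + l) 0) :=
    fun hm => by rw [aa_eq]; exact Bl.Mem.add (mem_conj hm) (sh_mem hβ)
  induction t generalizing x y h k with
  | A n n' =>
    rw [chk] at hc
    exact modeA_sound hL hL' (by omega) hZ hb (by linarith) (by linarith)
      (mA (cb_mem x0 x1 y0 y1)) (mA' (cb_mem x0 x1 y0 y1)) hY hP hc
  | F n n' =>
    rw [chk] at hc
    exact modeA_sound hL hL' (by omega) hZ hb (by linarith) (by linarith)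
      (mA (cb_mem x0 x1 y0 y1)) (mA' (cb_mem x0 x1 y0 y1)) hY hP hc
  | D n' =>
    rw [chk] at hc
    exact modeD_sound hL hL' (by omega) hZ hb (by linarith) (by linarith) (by linarith)
      (by linarith) (mA (cb_mem x0 x1 y0 y1)) (mA' (cb_mem x0 x1 y0 y1)) hY hP hc
  | E n' =>
    rw [chk] at hc
    exact modeD_sound hL hL' (by omega) hZ hb (by linarith) (by linarith) (by linarith)
      (by linarith) (mA (cb_mem x0 x1 y0 y1)) (mA' (cb_mem x0 x1 y0 y1)) hY hP hc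
  | C =>
    rw [chk] at hc
    exact (modeC_sound (cb_mem x0 x1 y0 y1) hl0 hl1 hc).elim
  | X s t ihs iht =>
    rw [chk, Bool.and_eq_true] at hc
    rcases le_total lam.re (sr (x + 2 * ((h + 1) / 2))) with c | c
    · exact ihs hc.1 x0 c y0 y1
    · exact iht hc.2 c (x1.trans (sr_le (by omega))) y0 y1
  | Y s t ihs iht =>
    rw [chk, Bool.and_eq_true] at hc
    rcases le_total lam.im (sr (y + 2 * ((k + 1) / 2))) with c | c
    · exact ihs hc.1 x0 x1 y0 c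
    · exact iht hc.2 x0 x1 c (y1.trans (sr_le (by omega)))

/-- The cell has a certificate. -/
def Ok (l : ℕ) (b x y h k : ℤ) : Prop := ∃ t : T, chk l b t x y h k = true

theorem Ok.X {l : ℕ} {b x y h k h' x' : ℤ} (e1 : h' = (h + 1) / 2) (e2 : x' = x + 2 * h')
    (h1 : Ok l b x y h' k) (h2 : Ok l b x' y h' k) : Ok l b x y h k := by
  obtain ⟨s, hs⟩ := h1
  obtain ⟨t, ht⟩ := h2
  exact ⟨.X s t, by rw [chk, ← e1, ← e2, hs, ht]; rfl⟩

theorem Ok.Y {l : ℕ} {b x y h k k' y' : ℤ} (e1 : k' = (k + 1) / 2) (e2 : y' = y + 2 * k')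
    (h1 : Ok l b x y h k') (h2 : Ok l b x y' h k') : Ok l b x y h k := by
  obtain ⟨s, hs⟩ := h1
  obtain ⟨t, ht⟩ := h2
  exact ⟨.Y s t, by rw [chk, ← e1, ← e2, hs, ht]; rfl⟩

end Vale.Agent.P139Z.NE
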